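import Vale.Agent.P286EX.Defs

/-!
# The universal point of a chart and the coproduct with it
-/

set_option linter.all false

namespace Vale.Agent.P286EX

open CategoryTheory Matrix TensorProduct Vale.Agent.P286 Vale.Agent.P286.St Vale.Agent.P286E

noncomputable section

variable {I : Type} [SmallCategory I]

/-- The functions on `Spec C × 𝔤`. -/
abbrev OV (D : CD I) (i : I) : Type := MvPolynomial (Fin 3) (D.C i)

/-- The equation `∑ y² - f`. -/
def FF (D : CD I) (i : I) : OV D i := ∑ a, MvPolynomial.X a ^ 2 - MvPolynomial.C (D.f i)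

/-- The functions on the chart. -/
abbrev OZ (D : CD I) (i : I) : Type := OV D i ⧸ Ideal.span {FF D i}

/-- Curves with a frame. -/
structure XD (D : CD I) : Type where
  sm : ∀ i, Algebra.Smooth ℂ (D.C i)
  zsm : ∀ i, Algebra.Smooth ℂ (OZ D i)
  pd : ∀ i, Derivation ℂ (D.C i) (D.C i)
  om : ∀ i, Ω[D.C i⁄ℂ]
  d_eq : ∀ i a, KaehlerDifferential.D ℂ (D.C i) a = pd i a • om i
  pd_om : ∀ i, (pd i).liftKaehlerDifferential (om i) = 1
  pd_κ : ∀ {i j : I} (α : i ⟶ j) (z : D.C i), pd j (D.κ α z) = D.c α * D.κ α (pd i z)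
  cp : ∀ i, IsCoprime (D.f i) (pd i (D.f i))
  flat : ∀ {i j : I} (α : i ⟶ j), (D.κ α : D.C i →+* D.C j).Flat

variable {D : CD I} {G : Grp}

section Alg

variable {A B : Type} [CommRing A] [Algebra ℂ A] [CommRing B] [Algebra ℂ B]

/-- The homomorphism given by a point of `Spec C × 𝔤`. -/
def vlift {i : I} (x : D.C i →ₐ[ℂ] A) (Y : Fin 3 → A) : OV D i →ₐ[ℂ] A :=
  MvPolynomial.aevalTower x Y

theorem vlift_X {i : I} (x : D.C i →ₐ[ℂ] A) (Y : Fin 3 → A) (a : Fin 3) :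
    vlift x Y (MvPolynomial.X a) = Y a := MvPolynomial.aevalTower_X _ _ a

theorem vlift_C {i : I} (x : D.C i →ₐ[ℂ] A) (Y : Fin 3 → A) (z : D.C i) :
    vlift x Y (MvPolynomial.C z) = x z := MvPolynomial.aevalTower_C _ _ z

theorem vlift_FF {i : I} (x : D.C i →ₐ[ℂ] A) (Y : Fin 3 → A) :
    vlift x Y (FF D i) = Y ⬝ᵥ Y - x (D.f i) := by
  simp only [FF, map_sub, map_sum, map_mul, vlift_X, vlift_C, dotProduct, sq]

/-- The projection. -/
def zmk (D : CD I) (i : I) : OV D i →ₐ[ℂ] OZ D i := Ideal.Quotient.mkₐ ℂ _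

/-- The structure map. -/
def zx (D : CD I) (i : I) : D.C i →ₐ[ℂ] OZ D i :=
  (zmk D i).comp (IsScalarTower.toAlgHom ℂ (D.C i) (OV D i))

/-- The coordinates. -/
def zy (D : CD I) (i : I) (a : Fin 3) : OZ D i := zmk D i (MvPolynomial.X a)

theorem zmk_C (i : I) (z : D.C i) : zmk D i (MvPolynomial.C z) = zx D i z := rfl

theorem zmk_FF (i : I) : zmk D i (FF D i) = 0 :=
  Ideal.Quotient.eq_zero_iff_mem.2 (Ideal.mem_span_singleton_self _)

theorem zmk_eq (i : I) : zmk D i = vlift (zx D i) (zy D i) := by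
  refine AlgHom.ext fun p => ?_
  induction p using MvPolynomial.induction_on with
  | C z => rw [vlift_C, zmk_C]
  | add p q hp hq => rw [map_add, map_add, hp, hq]
  | mul_X p a hp => rw [map_mul, map_mul, hp, vlift_X]; rfl

theorem zy_sq (i : I) : zy D i ⬝ᵥ zy D i = zx D i (D.f i) := by
  have h := zmk_FF (D := D) i
  rwa [zmk_eq, vlift_FF, sub_eq_zero] at h

/-- The universal property. -/
def zlift {i : I} (x : D.C i →ₐ[ℂ] A) (Y : Fin 3 → A) (h : Y ⬝ᵥ Y = x (D.f i)) :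
    OZ D i →ₐ[ℂ] A :=
  Ideal.Quotient.liftₐ _ (vlift x Y) fun p hp => by
    obtain ⟨q, rfl⟩ := Ideal.mem_span_singleton'.1 hp
    rw [map_mul, vlift_FF, h, sub_self, mul_zero]

theorem zlift_mk {i : I} (x : D.C i →ₐ[ℂ] A) (Y : Fin 3 → A) (h : Y ⬝ᵥ Y = x (D.f i))
    (p : OV D i) : zlift x Y h (zmk D i p) = vlift x Y p := rfl

theorem zlift_x {i : I} (x : D.C i →ₐ[ℂ] A) (Y : Fin 3 → A) (h : Y ⬝ᵥ Y = x (D.f i))
    (z : D.C i) : zlift x Y h (zx D i z) = x z := vlift_C x Y z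

theorem zlift_y {i : I} (x : D.C i →ₐ[ℂ] A) (Y : Fin 3 → A) (h : Y ⬝ᵥ Y = x (D.f i))
    (a : Fin 3) : zlift x Y h (zy D i a) = Y a := vlift_X x Y a

theorem z_ext {i : I} {φ ψ : OZ D i →ₐ[ℂ] A} (hx : ∀ z, φ (zx D i z) = ψ (zx D i z))
    (hy : ∀ a, φ (zy D i a) = ψ (zy D i a)) : φ = ψ := by
  refine AlgHom.ext fun p => ?_
  obtain ⟨p, rfl⟩ := Ideal.Quotient.mk_surjective p
  change φ (zmk D i p) = ψ (zmk D i p)
  induction p using MvPolynomial.induction_on with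
  | C z => exact hx z
  | add p q hp hq => rw [map_add, map_add, map_add, hp, hq]
  | mul_X p a hp => rw [map_mul, map_mul, map_mul, hp]; exact congrArg _ (hy a)

theorem ht_eq (G : Grp) (Y : Fin 3 → A) : G.ht Y = ∑ a, Y a • bt G A a := rfl

theorem ht_smul (G : Grp) (c : A) (Y : Fin 3 → A) : G.ht (c • Y) = c • G.ht Y := by
  simp only [ht_eq, Finset.smul_sum, Pi.smul_apply, smul_eq_mul, mul_smul]

theorem pt_mul_adj {h : Matrix (Fin G.N) (Fin G.N) A} (hh : G.Pt h) : h * h.adjugate = 1 := by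
  rw [mul_adjugate, hh.det, one_smul]

theorem pt_adj_mul {h : Matrix (Fin G.N) (Fin G.N) A} (hh : G.Pt h) : h.adjugate * h = 1 := by
  rw [adjugate_mul, hh.det, one_smul]

theorem adj_map {N : ℕ} (φ : A →ₐ[ℂ] B) (h : Matrix (Fin N) (Fin N) A) :
    h.adjugate.map φ = (h.map φ).adjugate := (φ : A →+* B).map_adjugate h

theorem map_one' {N : ℕ} (φ : A →ₐ[ℂ] B) : (1 : Matrix (Fin N) (Fin N) A).map φ = 1 :=
  Matrix.map_one _ (map_zero _) (map_one _)

variable (K : GK G)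
include K

theorem GK.tr_bt (a b : Fin 3) : trace (bt G A a * bt G A b) = if a = b then 2 else 0 := by
  have h : bt G A a * bt G A b = (G.β a * G.β b).map (algebraMap ℂ A) := Matrix.map_mul.symm
  have h2 : trace ((G.β a * G.β b).map (algebraMap ℂ A)) = algebraMap ℂ A (trace (G.β a * G.β b)) :=
    (AddMonoidHom.map_trace (algebraMap ℂ A) _).symm
  rw [h, h2, K.tr]
  split_ifs
  · exact map_ofNat _ 2
  · exact map_zero _

theorem GK.tr_ht (Y Y' : Fin 3 → A) : trace (G.ht Y * G.ht Y') = 2 * (Y ⬝ᵥ Y') := by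
  simp only [ht_eq, Finset.sum_mul, Finset.mul_sum, trace_sum, Matrix.smul_mul, Matrix.mul_smul,
    trace_smul, K.tr_bt, smul_eq_mul, mul_ite, mul_zero, Finset.sum_ite_eq, Finset.sum_ite_eq',
    Finset.mem_univ, if_true, dotProduct]
  exact Finset.sum_congr rfl fun a _ => by ring

omit K in
theorem two_cancel {x y : A} (h : 2 * x = 2 * y) : x = y := by
  have h2 : (algebraMap ℂ A 2⁻¹) * 2 = 1 := by
    rw [← map_ofNat (algebraMap ℂ A) 2, ← map_mul, inv_mul_cancel₀ two_ne_zero, map_one]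
  rw [← one_mul x, ← one_mul y, ← h2, mul_assoc, mul_assoc, h]

theorem GK.ht_inj {Y Y' : Fin 3 → A} (h : G.ht Y = G.ht Y') : Y = Y' := by
  funext a
  have h1 := K.tr_ht (Pi.single a 1) Y
  rw [h, K.tr_ht, single_one_dotProduct, single_one_dotProduct] at h1
  exact (two_cancel h1).symm

theorem GK.mul_ht {h : Matrix (Fin G.N) (Fin G.N) A} (hh : G.Pt h) (Y : Fin 3 → A) :
    h * G.ht Y = G.ht (adm G h *ᵥ Y) * h := by
  simp only [ht_eq, Finset.mul_sum, Matrix.mul_smul, K.ad_eq hh, Finset.sum_mul, Matrix.smul_mul,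
    Finset.smul_sum, mulVec, dotProduct, Finset.sum_smul, smul_smul]
  rw [Finset.sum_comm]
  exact Finset.sum_congr rfl fun a _ => Finset.sum_congr rfl fun b _ => by rw [mul_comm]

theorem GK.ht_adm {h : Matrix (Fin G.N) (Fin G.N) A} (hh : G.Pt h) (Y : Fin 3 → A) :
    G.ht (adm G h *ᵥ Y) = h * G.ht Y * h.adjugate := by
  rw [K.mul_ht hh, Matrix.mul_assoc, pt_mul_adj hh, Matrix.mul_one]

theorem GK.adm_dot {h : Matrix (Fin G.N) (Fin G.N) A} (hh : G.Pt h) (Y Y' : Fin 3 → A) :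
    (adm G h *ᵥ Y) ⬝ᵥ (adm G h *ᵥ Y') = Y ⬝ᵥ Y' := by
  apply two_cancel
  rw [← K.tr_ht, ← K.tr_ht, K.ht_adm hh, K.ht_adm hh]
  simp only [Matrix.mul_assoc]
  rw [← Matrix.mul_assoc h.adjugate h, pt_adj_mul hh, Matrix.one_mul, trace_mul_comm]
  simp only [Matrix.mul_assoc]
  rw [pt_adj_mul hh, Matrix.mul_one]

theorem GK.mul_ht_adj {h : Matrix (Fin G.N) (Fin G.N) A} (hh : G.Pt h) (Y : Fin 3 → A) :
    h * G.ht (adm G h.adjugate *ᵥ Y) = G.ht Y * h := by
  have h1 := K.mul_ht (K.adj hh) Y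
  calc h * G.ht (adm G h.adjugate *ᵥ Y)
      = h * (G.ht (adm G h.adjugate *ᵥ Y) * h.adjugate) * h := by
        rw [Matrix.mul_assoc, Matrix.mul_assoc, pt_adj_mul hh, Matrix.mul_one]
    _ = G.ht Y * h := by
        rw [← h1, ← Matrix.mul_assoc, pt_mul_adj hh, Matrix.one_mul]

end Alg

/-- The arrows of the test category. -/
abbrev Ar (G : Grp) (s : ℂ) (X Y : QO D) : Type := @Quiver.Hom (QS D G s).C _ X Y

variable {s : ℂ}

theorem ar_ext {X Y : QO D} {u v : Ar G s X Y} (h1 : QM.α u = QM.α v) (h2 : QM.φ u = QM.φ v)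
    (h3 : QM.h u = QM.h v) : u = v := QM.ext h1 h2 h3

theorem comp_α {X Y Z : QO D} (u : Ar G s X Y) (v : Ar G s Y Z) :
    QM.α (u ≫ v) = QM.α u ≫ QM.α v := rfl

theorem comp_φ {X Y Z : QO D} (u : Ar G s X Y) (v : Ar G s Y Z) :
    QM.φ (u ≫ v) = (QM.φ v).comp (QM.φ u) := rfl

theorem comp_h {X Y Z : QO D} (u : Ar G s X Y) (v : Ar G s Y Z) :
    QM.h (u ≫ v) = QM.h v * (QM.h u).map (QM.φ v) := rfl

theorem ar_assoc {X Y Z W : QO D} (u : Ar G s X Y) (v : Ar G s Y Z) (w : Ar G s Z W) :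
    (u ≫ v) ≫ w = u ≫ v ≫ w := Category.assoc u v w

/-- The identity. -/
abbrev idA (G : Grp) (s : ℂ) (X : QO D) : Ar G s X X := @CategoryStruct.id (QS D G s).C _ X

theorem ar_id_comp {X Y : QO D} (u : Ar G s X Y) : idA G s X ≫ u = u := Category.id_comp u

theorem ar_comp_id {X Y : QO D} (u : Ar G s X Y) : u ≫ idA G s Y = u := Category.comp_id u

theorem id_α (X : QO D) : QM.α (idA G s X) = 𝟙 X.i := rfl

theorem id_φ (X : QO D) : QM.φ (idA G s X) = AlgHom.id ℂ X.A.R := rfl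

theorem id_h (X : QO D) : QM.h (idA G s X) = 1 := rfl

/-- The universal point of the chart `i`. -/
abbrev Zo (xd : XD D) (i : I) : QO D :=
  ⟨i, { R := OZ D i, smooth := xd.zsm i }, zx D i, zy D i, zy_sq i⟩

variable (K : GK G) (xd : XD D)

include K in
theorem zar_sq {i : I} (X : QO D) (α : i ⟶ X.i) {k : Matrix (Fin G.N) (Fin G.N) X.A.R}
    (hk : G.Pt k) : (X.x (D.c α) • (adm G k.adjugate *ᵥ X.Y)) ⬝ᵥ
      (X.x (D.c α) • (adm G k.adjugate *ᵥ X.Y)) = (X.x.comp (D.κ α)) (D.f i) := by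
  rw [smul_dotProduct, dotProduct_smul, K.adm_dot (K.adj hk), X.sq, AlgHom.comp_apply, D.κ_f,
    map_mul, map_pow, smul_eq_mul, smul_eq_mul, sq, mul_assoc]

/-- The arrow from the universal point with the gauge transformation `k`. -/
def zar (s : ℂ) {i : I} (X : QO D) (α : i ⟶ X.i) (k : Matrix (Fin G.N) (Fin G.N) X.A.R)
    (hk : G.Pt k) : Ar G s (Zo xd i) X :=
  (⟨α, zlift (X.x.comp (D.κ α)) (X.x (D.c α) • (adm G k.adjugate *ᵥ X.Y)) (zar_sq K X α hk), k, hk,
    fun z => zlift_x _ _ _ z, by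
      have h : (zlift (X.x.comp (D.κ α)) (X.x (D.c α) • (adm G k.adjugate *ᵥ X.Y))
          (zar_sq K X α hk)) ∘ zy D i = X.x (D.c α) • (adm G k.adjugate *ᵥ X.Y) :=
        funext fun a => zlift_y _ _ _ a
      exact (congrArg (fun Y => k * G.ht Y) h).trans (by
        rw [ht_smul, Matrix.mul_smul, K.mul_ht_adj hk])⟩ : QM G (Zo xd i) X)

theorem zar_α {i : I} (X : QO D) (α : i ⟶ X.i) (k : Matrix (Fin G.N) (Fin G.N) X.A.R)
    (hk : G.Pt k) : QM.α (zar K xd s X α k hk) = α := rfl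

theorem zar_h {i : I} (X : QO D) (α : i ⟶ X.i) (k : Matrix (Fin G.N) (Fin G.N) X.A.R)
    (hk : G.Pt k) : QM.h (zar K xd s X α k hk) = k := rfl

include K in
/-- An arrow from the universal point is determined by its index and its gauge transformation. -/
theorem zar_ext {i : I} {X : QO D} {u v : Ar G s (Zo xd i) X} (h1 : QM.α u = QM.α v)
    (h3 : QM.h u = QM.h v) : u = v := by
  refine ar_ext h1 (z_ext (fun z => ?_) fun a => ?_) h3
  · exact (QM.hx u z).trans ((congrArg (fun β => X.x (D.κ β z)) h1).trans (QM.hx v z).symm)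
  · have e1 := QM.hY u
    have e2 := QM.hY v
    rw [h1, h3, ← e2] at e1
    have e3 := congrArg ((QM.h v).adjugate * ·) e1
    simp only [← Matrix.mul_assoc, pt_adj_mul (QM.pt v), Matrix.one_mul] at e3
    exact congrFun (K.ht_inj e3) a

/-- The canonical arrow from the universal point. -/
def zA (s : ℂ) (X : QO D) : Ar G s (Zo xd X.i) X := zar K xd s X (𝟙 X.i) 1 (Grp.Pt.one G)

/-- The arrow between the universal points. -/
def Za (s : ℂ) {i j : I} (α : i ⟶ j) : Ar G s (Zo xd i) (Zo xd j) :=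
  zar K xd s (Zo xd j) α 1 (Grp.Pt.one G)

theorem zA_Zo (i : I) : zA K xd s (Zo xd i) = idA G s (Zo xd i) :=
  zar_ext K xd rfl rfl

theorem Za_id (i : I) : Za K xd s (𝟙 i) = idA G s (Zo xd i) :=
  zar_ext K xd rfl rfl

theorem Za_comp {i j k : I} (α : i ⟶ j) (β : j ⟶ k) :
    Za K xd s (α ≫ β) = Za K xd s α ≫ Za K xd s β :=
  zar_ext K xd rfl ((Matrix.one_mul _).trans (map_one' _)).symm

/-- The inclusion of the first factor. -/
abbrev cL (A : Type) [CommRing A] [Algebra ℂ A] : A →ₐ[ℂ] A ⊗[ℂ] K.O.R :=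
  Algebra.TensorProduct.includeLeft

/-- The inclusion of the second factor. -/
abbrev cR (A : Type) [CommRing A] [Algebra ℂ A] : K.O.R →ₐ[ℂ] A ⊗[ℂ] K.O.R :=
  Algebra.TensorProduct.includeRight

/-- The coproduct of `X` with the universal point. -/
abbrev cop (X : QO D) : QO D :=
  ⟨X.i, { R := X.A.R ⊗[ℂ] K.O.R, smooth := Algebra.Smooth.comp ℂ X.A.R _ }, (cL K X.A.R).comp X.x,
    fun a => cL K X.A.R (X.Y a), by
      rw [AlgHom.comp_apply, ← X.sq]
      simp only [dotProduct, map_sum, map_mul]⟩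

/-- The coordinate of the coproduct. -/
def cg (X : QO D) : Matrix (Fin G.N) (Fin G.N) (cop K X).A.R := K.g.map (cR K X.A.R)

theorem cg_pt (X : QO D) : G.Pt (cg K X) := K.pt.map _

/-- The first inclusion. -/
def inl (s : ℂ) (X : QO D) : Ar G s X (cop K X) :=
  (⟨𝟙 X.i, cL K X.A.R, 1, Grp.Pt.one G, fun z => by rw [D.κ_id]; rfl, by
    rw [D.c_id, map_one, one_smul, Matrix.one_mul, Matrix.mul_one]; rfl⟩ : QM G X (cop K X))

/-- The second inclusion. -/
def inr (s : ℂ) (X : QO D) : Ar G s (Zo xd X.i) (cop K X) :=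
  zar K xd s (cop K X) (𝟙 X.i) (cg K X) (cg_pt K X)

theorem inl_α (X : QO D) : QM.α (inl K s X) = 𝟙 X.i := rfl
theorem inl_φ (X : QO D) : QM.φ (inl K s X) = cL K X.A.R := rfl
theorem inl_h (X : QO D) : QM.h (inl K s X) = 1 := rfl
theorem inr_α (X : QO D) : QM.α (inr K xd s X) = 𝟙 X.i := rfl
theorem inr_h (X : QO D) : QM.h (inr K xd s X) = cg K X := rfl

/-- The homomorphism from the ring of the coproduct. -/
def dscR {A B : Type} [CommRing A] [Algebra ℂ A] [CommRing B] [Algebra ℂ B] (f : A →ₐ[ℂ] B)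
    (k : Matrix (Fin G.N) (Fin G.N) B) (hk : G.Pt k) : A ⊗[ℂ] K.O.R →ₐ[ℂ] B :=
  Algebra.TensorProduct.lift f (K.ev k hk) fun _ _ => Commute.all _ _

theorem dscR_L {A B : Type} [CommRing A] [Algebra ℂ A] [CommRing B] [Algebra ℂ B] (f : A →ₐ[ℂ] B)
    (k : Matrix (Fin G.N) (Fin G.N) B) (hk : G.Pt k) (a : A) : dscR K f k hk (cL K A a) = f a := by
  simp [dscR]

theorem dscR_R {A B : Type} [CommRing A] [Algebra ℂ A] [CommRing B] [Algebra ℂ B] (f : A →ₐ[ℂ] B)
    (k : Matrix (Fin G.N) (Fin G.N) B) (hk : G.Pt k) (a : K.O.R) :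
    dscR K f k hk (cR K A a) = K.ev k hk a := by
  simp [dscR]

theorem dscR_g {A B : Type} [CommRing A] [Algebra ℂ A] [CommRing B] [Algebra ℂ B] (f : A →ₐ[ℂ] B)
    (k : Matrix (Fin G.N) (Fin G.N) B) (hk : G.Pt k) :
    (K.g.map (cR K A)).map (dscR K f k hk) = k :=
  (Matrix.ext fun p q => dscR_R K f k hk (K.g p q)).trans (K.ev_g k hk)

theorem tens_ext {A B : Type} [CommRing A] [Algebra ℂ A] [CommRing B] [Algebra ℂ B]
    {u v : A ⊗[ℂ] K.O.R →ₐ[ℂ] B} (h1 : u.comp (cL K A) = v.comp (cL K A))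
    (h2 : (K.g.map (cR K A)).map u = (K.g.map (cR K A)).map v) : u = v :=
  Algebra.TensorProduct.ext h1 (K.ext (u.comp (cR K A)) (v.comp (cR K A)) h2)

/-- The arrow from the coproduct given by an arrow from `X` and the gauge transformation of the
arrow from the universal point. -/
def dsc {X B : QO D} (u : Ar G s X B) (k : Matrix (Fin G.N) (Fin G.N) B.A.R) (hk : G.Pt k) :
    Ar G s (cop K X) B :=
  (⟨(QM.α (X := X) u :), dscR K (QM.φ u) ((QM.h u).adjugate * k) ((K.adj (QM.pt u)).mul hk), QM.h u, QM.pt u,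
    fun z => (dscR_L K _ _ _ _).trans (QM.hx u z), by
      have h : (dscR K (QM.φ u) ((QM.h u).adjugate * k) ((K.adj (QM.pt u)).mul hk)) ∘
          (cop K X).Y = QM.φ u ∘ X.Y := funext fun a => dscR_L K _ _ _ _
      exact (congrArg (fun Y => QM.h u * G.ht Y) h).trans (QM.hY u)⟩ : QM G (cop K X) B)

theorem dsc_α {X B : QO D} (u : Ar G s X B) (k : Matrix (Fin G.N) (Fin G.N) B.A.R) (hk : G.Pt k) :
    QM.α (dsc K u k hk) = QM.α u := rfl

theorem dsc_h {X B : QO D} (u : Ar G s X B) (k : Matrix (Fin G.N) (Fin G.N) B.A.R) (hk : G.Pt k) :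
    QM.h (dsc K u k hk) = QM.h u := rfl

theorem dsc_cg {X B : QO D} (u : Ar G s X B) (k : Matrix (Fin G.N) (Fin G.N) B.A.R)
    (hk : G.Pt k) : (cg K X).map (QM.φ (dsc K u k hk)) = (QM.h u).adjugate * k :=
  dscR_g K (QM.φ u) _ ((K.adj (QM.pt u)).mul hk)

theorem inl_dsc {X B : QO D} (u : Ar G s X B) (k : Matrix (Fin G.N) (Fin G.N) B.A.R)
    (hk : G.Pt k) : inl K s X ≫ dsc K u k hk = u :=
  ar_ext (Category.id_comp _) (AlgHom.ext fun a => dscR_L K _ _ ((K.adj (QM.pt u)).mul hk) a)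
    ((congrArg (QM.h u * ·) (map_one' _)).trans (Matrix.mul_one _))

theorem inr_dsc {X B : QO D} (u : Ar G s X B) (k : Matrix (Fin G.N) (Fin G.N) B.A.R)
    (hk : G.Pt k) : inr K xd s X ≫ dsc K u k hk = zar K xd s B (QM.α u) k hk :=
  zar_ext K xd (Category.id_comp _) ((congrArg (QM.h u * ·) (dsc_cg K u k hk)).trans (by
    rw [← Matrix.mul_assoc, pt_mul_adj (QM.pt u), Matrix.one_mul, zar_h]))

/-- The universal property of the coproduct. -/
theorem cop_ext {X B : QO D} {u v : Ar G s (cop K X) B} (h1 : inl K s X ≫ u = inl K s X ≫ v)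
    (h2 : QM.h u * (cg K X).map (QM.φ u) = QM.h v * (cg K X).map (QM.φ v)) : u = v := by
  have e1 : QM.α u = QM.α v :=
    (Category.id_comp _).symm.trans ((congrArg QM.α h1).trans (Category.id_comp _))
  have e3 : QM.h u = QM.h v := by
    have := congrArg QM.h h1
    rwa [comp_h, comp_h, inl_h, map_one', map_one', Matrix.mul_one, Matrix.mul_one] at this
  refine ar_ext e1 (tens_ext K (congrArg QM.φ h1) ?_) e3
  have e4 := congrArg ((QM.h v).adjugate * ·) h2
  simp only [e3, ← Matrix.mul_assoc, pt_adj_mul (QM.pt v), Matrix.one_mul] at e4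
  exact e4

theorem cop_ext' {X B : QO D} {u v : Ar G s (cop K X) B} (h1 : inl K s X ≫ u = inl K s X ≫ v)
    (h2 : inr K xd s X ≫ u = inr K xd s X ≫ v) : u = v := cop_ext K h1 (congrArg QM.h h2)

/-- Functoriality of the coproduct. -/
def copM {X Y : QO D} (u : Ar G s X Y) : Ar G s (cop K X) (cop K Y) :=
  dsc K (u ≫ inl K s Y) (cg K Y) (cg_pt K Y)

theorem copM_α {X Y : QO D} (u : Ar G s X Y) : QM.α (copM K u) = QM.α u := Category.comp_id _

theorem copM_h {X Y : QO D} (u : Ar G s X Y) : QM.h (copM K u) = (QM.h u).map (cL K Y.A.R) :=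
  Matrix.one_mul _

theorem copM_cg {X Y : QO D} (u : Ar G s X Y) : (cg K X).map (QM.φ (copM K u)) =
    ((QM.h u).map (cL K Y.A.R)).adjugate * cg K Y :=
  (dsc_cg K _ _ _).trans (congrArg (fun m => m.adjugate * cg K Y) (Matrix.one_mul _))

theorem inl_copM {X Y : QO D} (u : Ar G s X Y) : inl K s X ≫ copM K u = u ≫ inl K s Y :=
  inl_dsc K _ _ _

theorem inr_copM {X Y : QO D} (u : Ar G s X Y) :
    inr K xd s X ≫ copM K u = Za K xd s (QM.α u) ≫ inr K xd s Y :=
  (inr_dsc K xd _ _ _).trans (zar_ext K xd rfl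
    ((congrArg (cg K Y * ·) (map_one' _)).trans (Matrix.mul_one _)).symm)

theorem h_copM {X Y : QO D} (u : Ar G s X Y) :
    QM.h (copM K u) * (cg K X).map (QM.φ (copM K u)) = cg K Y := by
  rw [copM_cg, copM_h, ← Matrix.mul_assoc, pt_mul_adj ((QM.pt u).map _), Matrix.one_mul]

theorem copM_id (X : QO D) : copM K (idA G s X) = idA G s (cop K X) :=
  cop_ext K ((inl_copM K _).trans ((Category.id_comp _).trans (Category.comp_id _).symm))
    ((h_copM K _).trans (Matrix.one_mul _).symm)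

theorem copM_comp {X Y Z : QO D} (u : Ar G s X Y) (v : Ar G s Y Z) :
    copM K (u ≫ v) = copM K u ≫ copM K v :=
  cop_ext K (by rw [inl_copM, ← ar_assoc (inl K s X), inl_copM, ar_assoc, ar_assoc, inl_copM]) (by
    have e : (cg K X).map (QM.φ (copM K u ≫ copM K v)) =
        ((cg K X).map (QM.φ (copM K u))).map (QM.φ (copM K v)) := rfl
    rw [h_copM, comp_h, e, Matrix.mul_assoc, ← map_mul', h_copM, h_copM])

/-- The fold `X ⊔ Z → X`. -/
def fold (s : ℂ) (X : QO D) : Ar G s (cop K X) X :=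
  dsc K (idA G s X) 1 (Grp.Pt.one G)

theorem inl_fold (X : QO D) :
    inl K s X ≫ fold K s X = idA G s X := inl_dsc K _ _ _

theorem inr_fold (X : QO D) : inr K xd s X ≫ fold K s X = zA K xd s X := inr_dsc K xd _ _ _

/-- The arrows over an identity of the index category. -/
def Fib {X Y : QO D} (u : Ar G s X Y) : Prop := ∃ h : X.i = Y.i, QM.α u = eqToHom h

end

end Vale.Agent.P286EX
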