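import Vale.Agent.P286EX.Cop
import Vale.Agent.P286EC.Ad
import Vale.Agent.P286EG.Cart
import Vale.Agent.P286EK.Defs

/-!
# The generator, invariant classes, and the statements of the block
-/

set_option linter.all false

namespace Vale.Agent.P286EX

open CategoryTheory Matrix TensorProduct Vale.Agent.P286 Vale.Agent.P286.St Vale.Agent.P286.H847
  Vale.Agent.P286E Vale.Agent.P286EG Vale.Agent.P286EK

noncomputable section

/-! ### Families of complexes of modules over the functions -/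

/-- A family of complexes of modules over the functions. -/
structure FA (T : TSite) : Type 1 where
  M : ∀ X : T.C, AG (T.R X)
  t : ∀ {X Y : T.C}, (X ⟶ Y) → GD.Hom (M X).G (M Y).G
  sl : ∀ {X Y : T.C} (φ : X ⟶ Y), Sl (T.f φ).r (M X) (M Y) (t φ)
  t_id : ∀ (X : T.C) x, (t (𝟙 X)).f x = x
  t_comp : ∀ {X Y Z : T.C} (φ : X ⟶ Y) (ψ : Y ⟶ Z) x, (t (φ ≫ ψ)).f x = (t ψ).f ((t φ).f x)

/-- A morphism of families. -/
structure FA.Hom {T : TSite} (F F' : FA T) where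
  u : ∀ X, GD.Hom (F.M X).G (F'.M X).G
  li : ∀ X, Li (F.M X) (F'.M X) (u X)
  nat : ∀ {X Y : T.C} (φ : X ⟶ Y) x, (u Y).f ((F.t φ).f x) = (F'.t φ).f ((u X).f x)

/-- The underlying complex of modules of a complex of `D`-modules. -/
abbrev dag {A : Type} [CommRing A] [Algebra ℂ A] (M : H697.DGM A) : AG A where
  G := M.M
  fn := (Algebra.lsmul ℂ ℂ M.M.V : A →ₐ[ℂ] Module.End ℂ M.M.V).toRingHom
  gr a m x hx := M.gr_smul m a x hx
  d a x := M.d_smul a x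

/-- The underlying family of a gauge family. -/
abbrev HG.fa {T : TSite} {S : GS T} (K : HG S) : FA T :=
  ⟨fun X => dag (K.K X), K.t, K.t_smul, K.t_id, K.t_comp⟩

/-- The underlying family of a family of complexes of `D`-modules. -/
abbrev gfa {T : TSite} (K : GTD T) : FA T := ⟨ag K, K.tr, sl_tr K, K.id, fun φ ψ => K.comp _ _ _ φ ψ⟩

variable {I : Type} [SmallCategory I] {D : CD I} {G : Grp} {s : ℂ}

/-- The family is cartesian along the arrows over the identities. -/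
def FC (F : FA (QS D G s)) : Prop :=
  ∀ (X Y : QO D) (u : Ar G s X Y), Fib u → DB (QM.φ u).r (F.M X) (F.M Y) (F.t u)

/-- The algebra of a test object. -/
abbrev RQ (G : Grp) (s : ℂ) (X : QO D) : Type := (QS D G s).R X

/-- The structure map. -/
def qx (G : Grp) (s : ℂ) (X : QO D) : D.C X.i →ₐ[ℂ] RQ G s X := X.x

/-- The coordinates. -/
def qY (G : Grp) (s : ℂ) (X : QO D) : Fin 3 → RQ G s X := X.Y

/-- The gauge transformation. -/
def qh {X Y : QO D} (u : Ar G s X Y) : Matrix (Fin G.N) (Fin G.N) (RQ G s Y) := QM.h u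

theorem qpt {X Y : QO D} (u : Ar G s X Y) : G.Pt (qh u) := QM.pt u

variable {K : GK G}

/-- The matrix of a point in a representation. -/
def Rep.at (U : Rep K) {B : Type} [CommRing B] [Algebra ℂ B] (h : Matrix (Fin G.N) (Fin G.N) B)
    (hh : G.Pt h) : Matrix (Fin U.n) (Fin U.n) B := U.r.map (K.ev h hh)

variable (xd : XD D) (U : Rep K)

/-- The difference of the two sides of the equivariance condition. -/
def eqv (F : FA (QS D G s)) (i : I) (x : Fin U.n → (F.M (Zo xd i)).G.V) (k : Fin U.n) :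
    (F.M (cop K (Zo xd i))).G.V :=
  (F.t (inr K xd s (Zo xd i))).f (x k) -
    ∑ l, (F.M (cop K (Zo xd i))).fn (U.at (qh (inr K xd s (Zo xd i))) (qpt _) l k)
      ((F.t (inl K s (Zo xd i))).f (x l))

/-- `x` is the boundary of an element of degree `m - 1`. -/
def Bd (M : GD) (m : ℤ) (x : M.V) : Prop := ∃ y ∈ M.gr (m - 1), M.d y = x

/-- `x` is a cocycle of degree `m`. -/
def Cy (M : GD) (m : ℤ) (x : M.V) : Prop := x ∈ M.gr m ∧ M.d x = 0

/-- A family of cocycles whose classes are equivariant. -/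
def InvC (F : FA (QS D G s)) (i : I) (m : ℤ) (x : Fin U.n → (F.M (Zo xd i)).G.V) : Prop :=
  (∀ k, Cy _ m (x k)) ∧ ∀ k, Bd (F.M (cop K (Zo xd i))).G m (eqv xd U F i x k)

/-- The maps `e` identify the cohomology of `N` with the equivariant classes. -/
structure Hit (F : FA (QS D G s)) (i : I) (N : GD)
    (e : Fin U.n → GD.Hom N (F.M (Zo xd i)).G) : Prop where
  inv : ∀ m x, Cy N m x → InvC xd U F i m fun k => (e k).f x
  inj : ∀ m x, Cy N m x → (∀ k, Bd _ m ((e k).f x)) → Bd N m x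
  sur : ∀ m z, InvC xd U F i m z → ∃ x, Cy N m x ∧ ∀ k, Bd _ m (z k - (e k).f x)

/-! ### The generator -/

/-- The index set of the basis of the part without ghosts. -/
abbrev BI (n : ℕ) : Type := (Fin 4 →₀ ℕ) × Fin n × Bool

/-- The order. -/
def BI.ord {n : ℕ} (β : BI n) : ℕ := ∑ j, β.1 j

/-- The derivatives of the equation. -/
def Fj (G : Grp) (s : ℂ) (X : QO D) : Fin 4 → RQ G s X :=
  Fin.cons (- qx G s X (xd.pd X.i (D.f X.i))) fun a => 2 * qY G s X a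

variable (K) in
/-- The generator `P` with its algebra of endomorphisms `A`. -/
structure PD (s : ℂ) (U : Rep K) : Type 1 where
  A : DD I
  cf : ∀ i, D.C i →ₐ[ℂ] (A.A i).R
  cf_gr : ∀ i z, cf i z ∈ (A.A i).gr 0
  cf_d : ∀ i z, (A.A i).d (cf i z) = 0
  cf_τ : ∀ {i j : I} (α : i ⟶ j) z, (A.τ α).f (cf i z) = cf j (D.κ α z)
  P : HG (K.gs D s)
  sg : ∀ X : QO D, (P.K X).M.V →ₗ[RQ G s X] (P.K X).M.V
  sg_gr : ∀ (X : QO D) (m : ℤ) p, p ∈ (P.K X).M.gr m → sg X p = (m.negOnePow : ℤ) • p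
  int : ∀ X : QO D, DirectSum.IsInternal (P.K X).M.gr
  ra : ∀ X : QO D, (A.A X.i).R →ₗ[ℂ] (P.K X).M.V →ₗ[RQ G s X] (P.K X).M.V
  ra_one : ∀ X p, ra X 1 p = p
  ra_mul : ∀ X a b p, ra X (a * b) p = ra X b (ra X a p)
  ra_d : ∀ X a p, (P.K X).M.d (ra X a p) = ra X a ((P.K X).M.d p) + ra X ((A.A X.i).d a) (sg X p)
  ra_gr : ∀ X (m n : ℤ) p a, p ∈ (P.K X).M.gr m → a ∈ (A.A X.i).gr n →
    ra X a p ∈ (P.K X).M.gr (m + n)
  ra_act : ∀ X a v p, ra X a ((P.K X).C.act v p) = (P.K X).C.act v (ra X a p)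
  ra_i : ∀ X a b p, ra X a (P.i X b p) = P.i X b (ra X a p)
  ra_t : ∀ {X Y : QO D} (u : Ar G s X Y) a p,
    (P.t u).f (ra X a p) = ra Y ((A.τ (QM.α u)).f a) ((P.t u).f p)
  e : ∀ X : QO D, Module.Basis (Finset (Fin 3) × BI U.n) (RQ G s X) (P.K X).M.V
  e_gr : ∀ X (S : Finset (Fin 3)) (β : BI U.n), e X (S, β) ∈ (P.K X).M.gr (-(S.card : ℤ) + if β.2.2 then 0 else 1)
  i_mem : ∀ X a S β, a ∈ S → P.i X a (e X (S, β)) = 0
  i_ins : ∀ X a S β, a ∉ S → P.i X a (e X (S, β)) =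
    (-1 : RQ G s X) ^ (S.filter (· < a)).card • e X (insert a S, β)
  j : ∀ X : QO D, Fin 3 → ((P.K X).M.V →ₗ[RQ G s X] (P.K X).M.V)
  j_i : ∀ X a b p, j X a (P.i X b p) = (if a = b then p else 0) - P.i X b (j X a p)
  j_e : ∀ X a β, j X a (e X (∅, β)) = 0
  j_t : ∀ {X Y : QO D} (u : Ar G s X Y) a p,
    j Y a ((P.t u).f p) = ∑ b, adm G (qh u) a b • (P.t u).f (j X b p)
  act_e : ∀ (X : QO D) (v : Derivation ℂ (RQ G s X) (RQ G s X)) (c : Fin 4 → RQ G s X),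
    (∀ z, v (qx G s X z) = c 0 * qx G s X (xd.pd X.i z)) → (∀ a, v (qY G s X a) = c a.succ) → ∀ S m k ε,
    (P.K X).C.act v (e X (S, m, k, ε)) = ∑ l, c l • e X (S, m + Finsupp.single l 1, k, ε)
  d_e0 : ∀ X m k, (P.K X).M.d (e X (∅, m, k, false)) = 0
  d_e1 : ∀ X (m : Fin 4 →₀ ℕ) k, (P.K X).M.d (e X (∅, m, k, true)) -
      ∑ l, ((m l : RQ G s X) * Fj xd G s X l) • e X (∅, m - Finsupp.single l 1, k, false) ∈
    Submodule.span (RQ G s X) {p | ∃ m' : Fin 4 →₀ ℕ, ∑ l, m' l + 2 ≤ ∑ l, m l ∧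
      p = e X (∅, m', k, false)}
  d_ord : ∀ X (S : Finset (Fin 3)) (β : BI U.n), (P.K X).M.d (e X (S, β)) ∈
    Submodule.span (RQ G s X) {p | ∃ (S' : Finset (Fin 3)) (β' : BI U.n), β'.ord ≤ β.ord + 1 ∧
      (S'.card < S.card ∨ (S' = S ∧ β.2.2 = true ∧ β'.2.2 = false)) ∧ p = e X (S', β')}
  t_one : ∀ {X Y : QO D} (u : Ar G s X Y), Fib u → QM.h u = 1 → ∀ γ, (P.t u).f (e X γ) = e Y γ
  t_u : ∀ {X Y : QO D} (u : Ar G s X Y) k, (P.t u).f (e X (∅, 0, k, true)) =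
    ∑ l, U.at (qh u) (qpt u) l k • e Y (∅, 0, l, true)
  t_ord : ∀ {X Y : QO D} (u : Ar G s X Y) (β : BI U.n), (P.t u).f (e X (∅, β)) ∈
    Submodule.span (RQ G s Y) {p | ∃ β' : BI U.n, β'.ord ≤ β.ord ∧ β'.2.2 = β.2.2 ∧ p = e Y (∅, β')}
  t_ord' : ∀ {X Y : QO D} (u : Ar G s X Y) (β : BI U.n), e Y (∅, β) ∈
    Submodule.span (RQ G s Y) {p | ∃ β' : BI U.n, β'.ord ≤ β.ord ∧ β'.2.2 = β.2.2 ∧ p = (P.t u).f (e X (∅, β'))}
  bc : ∀ {X Y : QO D} (u : Ar G s X Y),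
    ∃ e' : Module.Basis (Finset (Fin 3) × BI U.n) (RQ G s Y) (P.K Y).M.V, ∀ γ, e' γ = (P.t u).f (e X γ)
  ra_cf : ∀ X z k, ra X (cf X.i z) (e X (∅, 0, k, true)) = qx G s X z • e X (∅, 0, k, true)
  un_inj : ∀ i m a, Cy (A.A i).G m a → ∀ p : Fin U.n → (P.K (Zo xd i)).M.V,
    (∀ k, p k ∈ (P.K (Zo xd i)).M.gr (m - 1)) → (∀ k, eqv xd U P.fa i p k = 0) →
    (∀ k, (P.K (Zo xd i)).M.d (p k) = ra (Zo xd i) a (e _ (∅, 0, k, true))) → Bd (A.A i).G m a
  un_sur : ∀ i m (p : Fin U.n → (P.K (Zo xd i)).M.V), (∀ k, Cy _ m (p k)) →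
    (∀ k, eqv xd U P.fa i p k = 0) → ∃ a, Cy (A.A i).G m a ∧
      ∃ q : Fin U.n → (P.K (Zo xd i)).M.V, (∀ k, q k ∈ (P.K (Zo xd i)).M.gr (m - 1)) ∧
        (∀ k, eqv xd U P.fa i q k = 0) ∧
        ∀ k, (P.K (Zo xd i)).M.d (q k) = p k - ra (Zo xd i) a (e _ (∅, 0, k, true))

/-- A module over a DG algebra as a complex of modules over a base ring. -/
abbrev mag {C : Type} [CommRing C] [Algebra ℂ C] {A : DGA} (cf : C →ₐ[ℂ] A.R)
    (h0 : ∀ z, cf z ∈ A.gr 0) (hd : ∀ z, A.d (cf z) = 0) (N : P286EK.DGM A) : AG C where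
  G := N.toGD
  fn := (N.act.comp cf).toRingHom
  gr z m x hx := by
    have h := N.act_gr 0 m _ x (h0 z) hx
    rwa [zero_add] at h
  d z x := by
    have h := N.leib (cf z) x
    rw [hd, map_zero, LinearMap.zero_apply, zero_add, A.sg_gr 0 _ (h0 z), Int.negOnePow_zero,
      Units.val_one, one_smul] at h
    exact h

/-- A diagram of DG algebras over the chart datum. -/
structure DC (D : CD I) : Type 1 where
  A : DD I
  cf : ∀ i, D.C i →ₐ[ℂ] (A.A i).R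
  cf_gr : ∀ i z, cf i z ∈ (A.A i).gr 0
  cf_d : ∀ i z, (A.A i).d (cf i z) = 0
  cf_τ : ∀ {i j : I} (α : i ⟶ j) z, (A.τ α).f (cf i z) = cf j (D.κ α z)

/-- The module is cartesian over the base rings. -/
def DC.Cart (B : DC D) (N : DM B.A) : Prop :=
  ∀ (i j : I) (α : i ⟶ j), DB (D.κ α : D.C i →+* D.C j)
    (mag (B.cf i) (B.cf_gr i) (B.cf_d i) (N.M i)) (mag (B.cf j) (B.cf_gr j) (B.cf_d j) (N.M j))
    (N.ρ α)

/-- The cartesian modules. -/
def DC.wd (B : DC D) : WD.{1, 0} where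
  C := (mdc B.A).full B.Cart
  W _ _ a := mqis B.A (H353.zup (C := mdc B.A) (P := B.Cart) a)
  wid _ _ := GD.Qis.id _

variable {xd U} in
/-- The algebras of the generator. -/
def PD.dc (P : PD K xd s U) : DC D := ⟨P.A, P.cf, P.cf_gr, P.cf_d, P.cf_τ⟩

/-! ### Statements -/

/-- Reflection of quasi-isomorphisms. -/
def REFL : Prop := ∀ (I : Type) [SmallCategory I] (D : CD I) (G : Grp) (s : ℂ) (K : GK G)
  (xd : XD D) (U : Rep K), U.Low → ∀ (F F' : GTD (QS D G s)) (u : FA.Hom (gfa F) (gfa F')),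
  FC (gfa F) → FC (gfa F') →
  (∀ X v x, (u.u X).f (F.vf X v x) = F'.vf X v ((u.u X).f x)) →
  ∀ (i : I) (N : GD) (e : Fin U.n → GD.Hom N (F.F (Zo xd i))), Hit xd U (gfa F) i N e →
  Hit xd U (gfa F') i N (fun k => (u.u (Zo xd i)).comp (e k)) → GD.Qis (u.u (Zo xd i))

/-- Detection of cartesian families. -/
def CARTF : Prop := ∀ (I : Type) [SmallCategory I] (D : CD I) (G : Grp) (s : ℂ) (K : GK G)
  (xd : XD D) (U : Rep K), U.Low → ∀ (F : GTD (QS D G s)), FC (gfa F) →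
  ∀ (i j : I) (α : i ⟶ j) (N : AG (D.C i)) (N' : AG (D.C j)) (ρ : GD.Hom N.G N'.G)
    (e : Fin U.n → GD.Hom N.G (F.F (Zo xd i))) (e' : Fin U.n → GD.Hom N'.G (F.F (Zo xd j))),
  Hit xd U (gfa F) i N.G e → Hit xd U (gfa F) j N'.G e' →
  (∀ k z x, (e k).f (N.fn z x) = F.fn (Zo xd i) (zx D i z) ((e k).f x)) →
  (∀ k z x, (e' k).f (N'.fn z x) = F.fn (Zo xd j) (zx D j z) ((e' k).f x)) →
  Sl (D.κ α : D.C i →+* D.C j) N N' ρ →
  (∀ k x, (e' k).f (ρ.f x) = (F.tr (Za K xd s α)).f ((e k).f x)) →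
  (DB (D.κ α : D.C i →+* D.C j) N N' ρ ↔
    DB (QM.φ (Za K xd s α)).r (ag F (Zo xd i)) (ag F (Zo xd j)) (F.tr (Za K xd s α)))

/-- The crystals on the charts are the cartesian modules over the endomorphisms of the
generator. -/
def GEN : Prop := ∀ (I : Type) [SmallCategory I] (D : CD I) (G : Grp) (s : ℂ) (K : GK G)
  (xd : XD D) (U : Rep K), U.Low → ∀ P : PD K xd s U, EQV (WD.st (QS D G s)) P.dc.wd

end

end Vale.Agent.P286EX
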