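import Vale.Agent.P286EX.Gen0
import Vale.Agent.P286EXI.Hx
import Vale.Agent.P286EXC.Cou

/-!
# The counit
-/

set_option linter.all false

namespace Vale.Agent.P286EX

open CategoryTheory TensorProduct Vale.Agent.P286 Vale.Agent.P286.St Vale.Agent.P286.H847
  Vale.Agent.P286.H353 Vale.Agent.P286.H710 Vale.Agent.P286.H697
open Vale.Agent.P286.H761 (CS CO)
open Vale.Agent.P286EK (DGA DD DM mdc UU mh mo mz)

noncomputable section

variable {T : TSite} {S : GS T} {I : Type} [SmallCategory I] {ix : T.C ⥤ I} {A : DD I}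

/-- A balanced pairing of the generator with a module. -/
structure PR (B : BD S ix A) (N : DM A) (F : OT T) : Type 1 where
  β : ∀ X, B.P.V X →ₗ[ℂ] (N.M (ix.obj X)).V →ₗ[ℂ] (F.F X).M.V
  act : ∀ X a q ξ, β X ((B.ρ X).raD a q) ξ = β X q ((N.M (ix.obj X)).act a ξ)
  d : ∀ X q ξ, (F.F X).M.d (β X q ξ) = β X ((B.P.K X).D (bT T X) q) ξ +
    β X ((B.σ X).s q) ((N.M (ix.obj X)).d ξ)
  gr : ∀ X (i j : ℤ) q ξ, q ∈ (B.P.K X).gr i → ξ ∈ (N.M (ix.obj X)).gr j →
    β X q ξ ∈ (F.F X).M.gr (i + j)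
  smul : ∀ X (w : Om ℂ (T.R X)) q ξ, β X (w • q) ξ = w • β X q ξ
  tr : ∀ {X Y : T.C} (φ : X ⟶ Y) q ξ,
    β Y (B.P.gt φ q) ((N.ρ (ix.map φ)).f ξ) = F.t φ (β X q ξ)

namespace PR

variable {B : BD S ix A} {N N' : DM A} {F F' : OT T} (p : PR B N F)

/-- The map over `X`. -/
def c (X : T.C) : GD.Hom ((B.barH N).gau.F X).M (F.F X).M :=
  (B.ρ X).evD (bT T X) (N.M (ix.obj X)) (M := (F.F X).M) (p.β X) (p.act X) (p.d X) (p.gr X)

theorem c_as (X : T.C) (q : B.P.V X) (x : (UU (N.M (ix.obj X))).V) :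
    (p.c X).f (B.as N X (q ⊗ₜ[ℂ] x)) = p.β X q (P286EK.U0.p0 _ _ x) :=
  (B.ρ X).evD_asc (bT T X) (N.M (ix.obj X)) (M := (F.F X).M) (p.β X) (p.act X) (p.d X) (p.gr X) q x

theorem c_smul (X : T.C) (w : Om ℂ (T.R X)) (z : (B.barH N).V X) :
    (p.c X).f (w • z) = w • (p.c X).f z := by
  induction z using B.as_ind with
  | zero => exact (congrArg _ (smul_zero w)).trans ((map_zero _).trans
      ((congrArg _ (map_zero _)).trans (smul_zero _)).symm)
  | tmul q x =>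
    refine (congrArg (p.c X).f ((B.as N X).map_smul w _).symm).trans ?_
    exact (p.c_as X (w • q) x).trans ((p.smul X w q _).trans (congrArg _ (p.c_as X q x).symm))
  | add x y hx hy =>
    exact (congrArg _ (smul_add w x y)).trans ((map_add _ _ _).trans ((congrArg₂ (· + ·) hx hy).trans
      ((congrArg _ (map_add (p.c X).f x y)).trans (smul_add _ _ _)).symm))

theorem c_tr {X Y : T.C} (φ : X ⟶ Y) (z : (B.barH N).V X) :
    (p.c Y).f ((B.barH N).gt φ z) = F.t φ ((p.c X).f z) := by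
  induction z using B.as_ind with
  | zero => exact (congrArg _ (map_zero _)).trans ((map_zero _).trans
      ((congrArg _ (map_zero _)).trans (map_zero _)).symm)
  | tmul q x =>
    refine (congrArg (p.c Y).f (B.as_gt N φ q x)).trans ((p.c_as Y _ _).trans ?_)
    exact (congrArg _ (P286EK.U0.p0_mp _ _ x)).trans ((p.tr φ q _).trans
      (congrArg _ (p.c_as X q x).symm))
  | add x y hx hy =>
    exact (congrArg _ (map_add _ x y)).trans ((map_add _ _ _).trans ((congrArg₂ (· + ·) hx hy).trans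
      ((congrArg _ (map_add (p.c X).f x y)).trans (map_add _ _ _)).symm))

theorem c_nat (p' : PR B N' F') (z : DM.Coch N N' 0) (X : T.C) (f : (F.F X).M.V →ₗ[ℂ] (F'.F X).M.V)
    (h : ∀ q ξ, p'.β X q (z.f _ ξ) = f (p.β X q ξ)) (y : (B.barH N).V X) :
    (p'.c X).f ((HG.gauC (B.bcL _ _ 0 z)).1 X y) = f ((p.c X).f y) := by
  induction y using B.as_ind with
  | zero => exact (congrArg _ (map_zero _)).trans ((map_zero _).trans
      ((congrArg _ (map_zero _)).trans (map_zero _)).symm)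
  | tmul q x =>
    refine (congrArg (p'.c X).f (B.as_bc z q x)).trans ((p'.c_as X _ _).trans ?_)
    exact (congrArg₂ (fun a b => p'.β X a b)
      (P286EK.ssz_zero (E := ((B.ρ X).dr (bT T X)).toSGD) q) (P286EK.U0.p0_mp _ _ x)).trans
      ((h q _).trans (congrArg _ (p.c_as X q x).symm))
  | add x y hx hy =>
    exact (congrArg _ (map_add _ x y)).trans ((map_add _ _ _).trans ((congrArg₂ (· + ·) hx hy).trans
      ((congrArg _ (map_add (p.c X).f x y)).trans (map_add _ _ _)).symm))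

end PR

section Z

variable {B : BD S ix A} {N N' : Z0 (mdc A)} {F F' : Z0 (otc T)}

/-- The closed morphism defined by a pairing. -/
def PR.mor (p : PR B (mo N) (oo F)) : gO (B.barD.z0.obj N) ⟶ F :=
  otMk (F := (B.barH (mo N)).gau) (F' := oo F) p.c p.c_smul p.c_tr

theorem PR.mor_nat (p : PR B (mo N) (oo F)) (p' : PR B (mo N') (oo F')) (a : N ⟶ N') (f : F ⟶ F')
    (h : ∀ X q ξ, p'.β X q ((mh a _).f ξ) = (oh f X).f (p.β X q ξ)) :
    (gauD S).z0.map (B.barD.z0.map a) ≫ p'.mor = p.mor ≫ f :=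
  H353.z_ext ((otF T).ext' fun X y => p.c_nat p' (mz a) X (oh f X).f (h X) y)

theorem PR.mor_inn (p : PR B (mo N) (oo F)) (X : T.C) (v : (B.P.K X).M.V)
    (x : (UU ((mo N).M (ix.obj X))).V) :
    (oh p.mor X).f (inn (B.barD.z0.obj N) X
      (v ⊗ₜ[ℂ] x : (B.P.K X).M.V ⊗[ℂ] (UU ((mo N).M (ix.obj X))).V)) =
      p.β X ((1 : Om ℂ (T.R X)) ⊗ₜ[T.R X] v) (P286EK.U0.p0 _ _ x) :=
  p.c_as X ((1 : Om ℂ (T.R X)) ⊗ₜ[T.R X] v) x

end Z

variable {B : BD S ix A} (q : QX ix A) {pt : PT ix} {M : MD T} (J : JD pt M)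
  (E : ∀ F : OT T, EV B (q.hmM F) F)

/-- The pairing with values in the total. -/
def QX.pr (F : Z0 (otc T)) : PR B (mo ((q.xiD pt).z0.obj F)) (oo (M.midD.z0.obj F)) where
  β := (E (oo F)).β J
  act := (E (oo F)).β_act J
  d := (E (oo F)).β_d J
  gr := (E (oo F)).β_gr J
  smul := (E (oo F)).β_smul J
  tr := (E (oo F)).β_tr J

theorem QX.pr_nat (h : ∀ {F F' : OT T} (u : (otF T).P F F' 0) X p η,
      (E F').e X p ((q.hmC 0 u).f X η) = OT.co u X ((E F).e X p η))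
    {F F' : Z0 (otc T)} (a : F ⟶ F') (X : T.C) (p : B.P.V X)
    (ξ : ((mo ((q.xiD pt).z0.obj F)).M (ix.obj X)).V) :
    (q.pr J E F').β X p ((mh ((q.xiD pt).z0.map a) _).f ξ) =
      (oh (M.midD.z0.map a) X).f ((q.pr J E F).β X p ξ) :=
  (E (oo F)).β_nat J (E (oo F')) (zf a) (q.hmC 0 (zf a)) (h (zf a)) X p ξ _
    (pt.totC_zero (q.hmC 0 (zf a)) _ ξ)

/-- The counit. -/
def QX.cou (h : ∀ {F F' : OT T} (u : (otF T).P F F' 0) X p η,
      (E F').e X p ((q.hmC 0 u).f X η) = OT.co u X ((E F).e X p η)) :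
    (q.xiD pt).z0 ⋙ B.barD.z0 ⋙ (gauD S).z0 ⟶ M.midD.z0 where
  app F := (q.pr J E F).mor
  naturality _ _ a := PR.mor_nat _ _ ((q.xiD pt).z0.map a) (M.midD.z0.map a) (q.pr_nat J E h a)

end

end Vale.Agent.P286EX
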