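import Vale.Agent.P286EX.Gen0
import Vale.Agent.P286EXI.Xe

/-!
# The evaluation maps on the objects of the homotopy categories
-/

set_option linter.all false

namespace Vale.Agent.P286EX

open CategoryTheory Matrix TensorProduct Vale.Agent.P286 Vale.Agent.P286.St Vale.Agent.P286.H847
  Vale.Agent.P286.H353 Vale.Agent.P286.H710 Vale.Agent.P286.H697 Vale.Agent.P286E
  Vale.Agent.P286EG Vale.Agent.P286EK

noncomputable section

variable {I : Type} [SmallCategory I] {D : CD I} {G : Grp} {s : ℂ} {K : GK G} {xd : XD D}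
  {U : Rep K}

namespace PD

variable (P : PD K xd s U)

/-- The value at the generator in level `0`. -/
def xv (F : Z0 (otc (QS D G s))) (i : I) (k : Fin U.n) (x : ((mo (P.xiD.z0.obj F)).M i).V) :
    ((oo F).F (Zo xd i)).M.V := P.l0 (F := oo F) x (P.o1 (Zo xd i) (P.uv (Zo xd i) k))

theorem xv_map {F F' : Z0 (otc (QS D G s))} (a : F ⟶ F') (i : I) (k : Fin U.n)
    (x : ((mo (P.xiD.z0.obj F)).M i).V) :
    P.xv F' i k ((mh (P.xiD.z0.map a) i).f x) = (oh a (Zo xd i)).f (P.xv F i k x) :=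
  P.l0_z0 a i x _

/-- The evaluation maps. -/
def xE (L : Z0 (hgc (K.gs D s))) (i : I) (k : Fin U.n) :
    GD.Hom ((mo (P.xiD.z0.obj (gO L))).M i).toGD ((ho L).fa.M (Zo xd i)).G := xiE P (ho L) i k

theorem xE_eq (L : Z0 (hgc (K.gs D s))) (i : I) (k : Fin U.n)
    (x : ((mo (P.xiD.z0.obj (gO L))).M i).V) :
    (P.xE L i k).f x = (piZ L (Zo xd i)).f (P.xv (gO L) i k x) := xiE_eq P (ho L) i k x

theorem xE_nat {L L' : Z0 (hgc (K.gs D s))} (a : gO L ⟶ gO L') (i : I)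
    (v : ((ho L).fa.M (Zo xd i)).G.V → ((ho L').fa.M (Zo xd i)).G.V)
    (h : ∀ y, (piZ L' (Zo xd i)).f ((oh a (Zo xd i)).f y) = v ((piZ L (Zo xd i)).f y))
    (k : Fin U.n) (x : ((mo (P.xiD.z0.obj (gO L))).M i).V) :
    (P.xE L' i k).f ((mh (P.xiD.z0.map a) i).f x) = v ((P.xE L i k).f x) :=
  (P.xE_eq L' i k _).trans ((congrArg (piZ L' (Zo xd i)).f (P.xv_map a i k x)).trans
    ((h _).trans (congrArg v (P.xE_eq L i k x).symm)))

theorem xE_cf (L : Z0 (hgc (K.gs D s))) (i : I) (k : Fin U.n) (z : D.C i)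
    (x : ((mo (P.xiD.z0.obj (gO L))).M i).V) :
    (P.xE L i k).f (((mo (P.xiD.z0.obj (gO L))).M i).act (P.cf i z) x) =
      ((ho L).fa.M (Zo xd i)).fn (zx D i z) ((P.xE L i k).f x) := xiE_cf P (ho L) i k z x

theorem xE_ρ (L : Z0 (hgc (K.gs D s))) {i j : I} (α : i ⟶ j) (k : Fin U.n)
    (x : ((mo (P.xiD.z0.obj (gO L))).M i).V) :
    (P.xE L j k).f (((mo (P.xiD.z0.obj (gO L))).ρ α).f x) =
      ((ho L).t (Za K xd s α)).f ((P.xE L i k).f x) := xiE_ρ P (ho L) α k x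

end PD

end

end Vale.Agent.P286EX
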