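import Vale.Agent.P286EX.Gen1
import Vale.Agent.P286EX.Cn
import Vale.Agent.P286EXU.Un
import Vale.Agent.P286EB.Evx
import Vale.Agent.P286EG3.Fc
import Vale.Agent.P286EX6.Cart

/-!
# The crystals are the cartesian modules over the endomorphisms of the generator
-/

set_option linter.all false

namespace Vale.Agent.P286EX

open CategoryTheory TensorProduct Vale.Agent.P286 Vale.Agent.P286.St Vale.Agent.P286.H847
  Vale.Agent.P286.H353 Vale.Agent.P286.H710 Vale.Agent.P286.H697 Vale.Agent.P286E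
  Vale.Agent.P286EG
open Vale.Agent.P286EK (DGA DD DM mdc UU mh mz Res epsT)

noncomputable section

section Gen

variable {T : TSite} {S : GS T} {I : Type} [SmallCategory I] {ix : T.C ⥤ I} {A : DD I}
  {B : BD S ix A}

theorem inn_add (L : Z0 (hgc S)) (X : T.C) (x y : ((ho L).fa.M X).G.V) :
    inn L X (x + y) = inn L X x + inn L X y := tmul_add _ _ _

theorem inn_zero (L : Z0 (hgc S)) (X : T.C) : inn L X 0 = 0 := tmul_zero _ _

/-- The map `a ⊗ w ↦ v a ⊗ w`. -/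
def BD.fl (B : BD S ix A) (N : Z0 (mdc A)) (X : T.C) (v : (B.P.K X).M.V) :
    ((P286EK.mo ((Res A).z0.obj N)).M (ix.obj X)).V →ₗ[ℂ] ((ho (B.barD.z0.obj N)).fa.M X).G.V :=
  ((B.ρ X).ra.flip v).rTensor (UU ((P286EK.mo N).M (ix.obj X))).V

theorem PR.mor_fl {N : Z0 (mdc A)} {F : Z0 (otc T)} (p : PR B (P286EK.mo N) (oo F)) (X : T.C)
    (v : (B.P.K X).M.V) (z : ((P286EK.mo ((Res A).z0.obj N)).M (ix.obj X)).V) :
    (oh p.mor X).f (inn (B.barD.z0.obj N) X (B.fl N X v z)) =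
      p.β X (B.P.o1 X v) ((mh ((epsT A).app N) (ix.obj X)).f z) := by
  induction z using TensorProduct.induction_on with
  | zero =>
    exact (congrArg _ ((congrArg _ (map_zero _)).trans (inn_zero _ X))).trans
      ((map_zero _).trans ((congrArg _ (map_zero _)).trans (map_zero _)).symm)
  | tmul a x => exact (p.mor_inn X _ x).trans (p.act X a (B.P.o1 X v) _)
  | add x y hx hy =>
    exact (congrArg _ ((congrArg _ (map_add _ x y)).trans (inn_add _ X _ _))).trans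
      ((map_add _ _ _).trans ((congrArg₂ (· + ·) hx hy).trans
        ((congrArg _ (map_add _ x y)).trans (map_add _ _ _)).symm))

/-- The component of level zero. -/
def QX.z0 (q : QX ix A) (pt : PT ix) (F : Z0 (otc T)) (i : I)
    (ξ : ((P286EK.mo ((q.xiD pt).z0.obj F)).M i).V) : (q.Φ (oo F) ((pt.P i).P 0)).V :=
  (show (q.cs pt (oo F) i).Tot.V from ξ) 0

theorem QX.gz_pr (q : QX ix A) {pt : PT ix} {M : MD T} (J : JD pt M)
    (E : ∀ F : OT T, EV B (q.hmM F) F) (F : Z0 (otc T)) (X : T.C) (p : B.P.V X)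
    (ξ : ((P286EK.mo ((q.xiD pt).z0.obj F)).M (ix.obj X)).V) :
    (M.gz F X).f ((q.pr J E F).β X p ξ) = (E (oo F)).e X p
      ((q.ext (oo F) (J.j X 0 ≫ (M.con X).r)).f (q.z0 pt F _ ξ)) := (E (oo F)).g_β J X p ξ

/-- The free family is the de Rham complex of the generator. -/
structure QJ (q : QX ix A) (B : BD S ix A) : Type 1 where
  j : ∀ X, B.P.V X →ₗ[Om ℂ (T.R X)] (q.Q.F X).M.V
  d : ∀ X p, j X ((B.P.K X).D (bT T X) p) = (q.Q.F X).M.d (j X p)
  s : ∀ X p, j X ((B.σ X).s p) = (q.σ X).s (j X p)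
  gr : ∀ X (m : ℤ) p, p ∈ (B.P.K X).gr m → j X p ∈ (q.Q.F X).M.gr m
  ra : ∀ X a p, j X ((B.ρ X).raD a p) = q.ra X a (j X p)
  t : ∀ {X Y : T.C} (φ : X ⟶ Y) p, j Y (B.P.gt φ p) = q.Q.t φ (j X p)

variable {q : QX ix A} (f : QJ q B)

/-- The evaluation pairing. -/
def QJ.ev (F : OT T) : EV B (q.hmM F) F where
  e X := LinearMap.mk₂ ℂ (fun p (η : (q.Φ F X).V) => η (f.j X p))
    (fun p p' η => by rw [map_add, map_add])
    (fun c p η => (congrArg η (LinearMap.map_smul_of_tower (f.j X) c p)).trans (map_csmul η c _))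
    (fun _ _ _ => rfl) fun _ _ _ => rfl
  e_smul X w p η := (congrArg η (map_smul (f.j X) w p)).trans (map_smul η w _)
  e_d X p η := by
    change _ = η (f.j X _) + hmd (q.σ X) (F.F X) η (f.j X _)
    rw [hmd_apply, f.s, f.d, (q.σ X).s_s, add_sub_cancel]
    rfl
  e_gr X i j p η hp hη := hη i _ (f.gr X i p hp)
  e_act X a p η := congrArg η (f.ra X a p)
  e_t φ p η := (congrArg ((q.ext F φ).f η) (f.t φ p)).trans (q.ext_t F φ η _)

theorem QJ.ev_e (F : OT T) (X : T.C) (p : B.P.V X) (η : (q.Φ F X).V) :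
    (f.ev F).e X p η = η (f.j X p) := rfl

theorem QJ.ev_nat {F F' : OT T} (u : (otF T).P F F' 0) (X : T.C) (p : B.P.V X) (η : (q.Φ F X).V) :
    (f.ev F').e X p ((q.hmC 0 u).f X η) = OT.co u X ((f.ev F).e X p η) :=
  congrArg (fun y => OT.co u X (η y)) ((q.σ X).sz_zero _)

variable {pt : PT ix} {M : MD T} (J : JD pt M)

/-- The counit. -/
def QJ.cou : (q.xiD pt).z0 ⋙ B.barD.z0 ⋙ (gauD S).z0 ⟶ M.midD.z0 := q.cou J f.ev f.ev_nat

theorem QJ.gz_cou (F : Z0 (otc T)) (X : T.C) (v : (B.P.K X).M.V)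
    (x : ((P286EK.mo ((Res A).z0.obj ((q.xiD pt).z0.obj F))).M (ix.obj X)).V) :
    (M.gz F X).f ((oh ((f.cou J).app F) X).f
      (inn (B.barD.z0.obj ((q.xiD pt).z0.obj F)) X (B.fl ((q.xiD pt).z0.obj F) X v x))) =
    (q.ext (oo F) (J.j X 0 ≫ (M.con X).r)).f (q.z0 pt F _
      ((mh ((epsT A).app ((q.xiD pt).z0.obj F)) (ix.obj X)).f x)) (f.j X (B.P.o1 X v)) :=
  (congrArg (M.gz F X).f ((q.pr J f.ev F).mor_fl X v x)).trans (q.gz_pr J f.ev F X _ _)

end Gen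

variable {I : Type} [SmallCategory I] {D : CD I} {G : Grp} {s : ℂ} {K : GK G} {xd : XD D}
  {U : Rep K}

variable (K xd s) in
/-- The comparison of the powers of the universal point with the objects under `X`. -/
def jdQ : JD (ptQ s K xd) (mdQ K D s) where
  j X := (jS K xd s X).P
  j_fc X := (jS K xd s X).face
  j_M φ := jS_undM K xd φ
  j_a X k := (Category.id_comp _).trans ((jS_α K xd X k).trans (uA_α K X k).symm)

namespace PD

variable (P : PD K xd s U)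

theorem raD_raQ (X : QO D) (a : (P.A.A X.i).R) (q : (P.Q X).M.V) :
    (P.rho X).raD a q = P.raQ X a q := by
  induction q using DR.induction with
  | zero => exact (map_zero _).trans (map_zero _).symm
  | tmul w p => exact ((P.rho X).raD_tmul a w p).trans (P.raQ_tmul X a w p).symm
  | add x y hx hy => exact (map_add _ x y).trans ((congrArg₂ (· + ·) hx hy).trans (map_add _ x y).symm)

/-- The free family is the de Rham complex of the generator. -/
def qj : QJ P.xq P.bd where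
  j X := LinearMap.id (R := Om ℂ (RQ G s X)) (M := (P.Q X).M.V)
  d _ _ := rfl
  s _ _ := rfl
  gr _ _ _ h := h
  ra := P.raD_raQ
  t _ _ := rfl

/-- The counit. -/
def cou : P.xiD.z0 ⋙ (barD P).z0 ⋙ (gauD (K.gs D s)).z0 ⟶ (mdQ K D s).midD.z0 :=
  P.qj.cou (jdQ s K xd)

theorem ext_z0 (F : Z0 (otc (QS D G s))) (i : I) (k : Fin U.n)
    (ξ : ((P286EK.mo (P.xiD.z0.obj F)).M i).V) :
    (P.xq.ext (oo F) ((jdQ s K xd).j (Zo xd i) 0 ≫ ((mdQ K D s).con (Zo xd i)).r)).f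
      (P.xq.z0 (ptQ s K xd) F i ξ)
      (P.qj.j (Zo xd i) (P.P.o1 (Zo xd i) (P.uv (Zo xd i) k))) = P.xv F i k ξ :=
  LinearMap.congr_fun
    ((congrArg (fun u : Ar G s (Zo xd i) (Zo xd i) => (P.ext (oo F) u).f (P.l0 (F := oo F) ξ))
      (inr_foldZ K xd i)).trans (P.xq.ext_id (oo F) _)) (P.o1 (Zo xd i) (P.uv (Zo xd i) k))

theorem bE_fl (N : Z0 (mdc P.A)) (i : I) (k : Fin U.n) (x : ((P286EK.mo ((Res P.A).z0.obj N)).M i).V) :
    (P.bE N i k).f x = P.bd.fl N (Zo xd i) (P.uv (Zo xd i) k) x := P.bE_f N i k x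

/-- The same vector, with the index written through the index functor. -/
def up (N : Z0 (mdc P.A)) (i : I) (x : ((P286EK.mo N).M i).V) :
    ((P286EK.mo N).M ((ixQ D G s).obj (Zo xd i))).V := x

theorem bE_up (N : Z0 (mdc P.A)) (i : I) (k : Fin U.n)
    (x : ((P286EK.mo ((Res P.A).z0.obj N)).M i).V) :
    (P.bE N i k).f x = P.bd.fl N (Zo xd i) (P.uv (Zo xd i) k) (P.up _ i x) := P.bE_f N i k x

theorem eps_up (N : Z0 (mdc P.A)) (i : I) (x : ((P286EK.mo ((Res P.A).z0.obj N)).M i).V) :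
    (mh ((epsT P.A).app N) ((ixQ D G s).obj (Zo xd i))).f (P.up _ i x) =
      P.up _ i ((mh ((epsT P.A).app N) i).f x) := rfl

theorem z0_up (F : Z0 (otc (QS D G s))) (i : I) (ξ : ((P286EK.mo (P.xiD.z0.obj F)).M i).V) :
    P.xq.z0 (ptQ s K xd) F ((ixQ D G s).obj (Zo xd i)) (P.up _ i ξ) =
      P.xq.z0 (ptQ s K xd) F i ξ := rfl

theorem gz_cou (F : Z0 (otc (QS D G s))) (i : I) (k : Fin U.n)
    (x : ((P286EK.mo ((Res P.A).z0.obj (P.xiD.z0.obj F))).M i).V) :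
    ((mdQ K D s).gz F (Zo xd i)).f ((oh (P.cou.app F) (Zo xd i)).f
      (inn ((barD P).z0.obj (P.xiD.z0.obj F)) (Zo xd i) ((P.bE (P.xiD.z0.obj F) i k).f x))) =
    P.xv F i k ((mh ((epsT P.A).app (P.xiD.z0.obj F)) i).f x) :=
  (congrArg (fun y => ((mdQ K D s).gz F (Zo xd i)).f ((oh (P.cou.app F) (Zo xd i)).f
    (inn ((barD P).z0.obj (P.xiD.z0.obj F)) (Zo xd i) y))) (P.bE_up _ i k x)).trans
    ((P.qj.gz_cou (jdQ s K xd) F (Zo xd i) _ (P.up _ i x)).trans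
      ((congrArg (fun z => (P.xq.ext (oo F)
          ((jdQ s K xd).j (Zo xd i) 0 ≫ ((mdQ K D s).con (Zo xd i)).r)).f z
          (P.qj.j (Zo xd i) (P.P.o1 (Zo xd i) (P.uv (Zo xd i) k))))
        ((congrArg (P.xq.z0 (ptQ s K xd) F ((ixQ D G s).obj (Zo xd i))) (P.eps_up _ i x)).trans
          (P.z0_up F i _))).trans (P.ext_z0 F i k _)))

theorem un_xE (N : Z0 (mdc P.A)) (i : I) (k : Fin U.n) (x : ((P286EK.mo ((Res P.A).z0.obj N)).M i).V) :
    (P.xE ((barD P).z0.obj N) i k).f ((mh (P.un.app N) i).f x) = (P.bE N i k).f x :=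
  P.un_E N i k x

theorem evh_xE (L : Z0 (hgc (K.gs D s))) (h : FC (ho L).fa) (i : I) :
    Hit xd U (ho L).fa i _ (P.xE L i) := P.evh (ho L) i h

theorem fc_Z (N : Z0 (mdc P.A)) : FC (ho ((barD P).z0.obj N)).fa := P286EG3.fc_bar P (P286EK.mo N)

end PD

open Vale.Agent.P286EK (mqis) in
/-- The constructor, with the family of algebras as a variable. -/
def Kt.of {A : DD I} {cf : ∀ i, D.C i →ₐ[ℂ] (A.A i).R} {h1 : ∀ i z, cf i z ∈ (A.A i).gr 0}
    {h2 : ∀ i z, (A.A i).d (cf i z) = 0}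
    {h3 : ∀ {i j : I} (α : i ⟶ j) z, (A.τ α).f (cf i z) = cf j (D.κ α z)}
    {S : GS (QS D G s)} {M : MD (QS D G s)}
    (bar : DGF (mdc A) (hgc S)) (xi : DGF (otc (QS D G s)) (mdc A))
    (un : (Res A).z0 ⟶ bar.z0 ⋙ (gauD S).z0 ⋙ xi.z0)
    (c : xi.z0 ⋙ bar.z0 ⋙ (gauD S).z0 ⟶ M.midD.z0)
    (xiE : ∀ (L : Z0 (hgc S)) (i : I), Fin U.n →
      GD.Hom ((P286EK.mo (xi.z0.obj (gO L))).M i).toGD ((ho L).fa.M (Zo xd i)).G)
    (evh : ∀ L, FC (ho L).fa → ∀ i, Hit xd U (ho L).fa i _ (xiE L i))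
    (xiE_nat : ∀ {L L' : Z0 (hgc S)} (a : gO L ⟶ gO L') i
      (v : ((ho L).fa.M (Zo xd i)).G.V → ((ho L').fa.M (Zo xd i)).G.V),
      (∀ y, (piZ L' (Zo xd i)).f ((oh a (Zo xd i)).f y) = v ((piZ L (Zo xd i)).f y)) →
      ∀ k x, (xiE L' i k).f ((mh (xi.z0.map a) i).f x) = v ((xiE L i k).f x))
    (xiE_cf : ∀ L i k z x, (xiE L i k).f (((P286EK.mo (xi.z0.obj (gO L))).M i).act (cf i z) x) =
      ((ho L).fa.M (Zo xd i)).fn (zx D i z) ((xiE L i k).f x))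
    (xiE_ρ : ∀ L {i j : I} (α : i ⟶ j) k x, (xiE L j k).f (((P286EK.mo (xi.z0.obj (gO L))).ρ α).f x) =
      ((ho L).t (Za K xd s α)).f ((xiE L i k).f x))
    (bar_fc : ∀ N, FC (ho (bar.z0.obj N)).fa)
    (bar_q : ∀ {N N'} (a : N ⟶ N'), mqis A a → ∀ X, GD.Qis (hh (bar.z0.map a) X))
    (bE : ∀ (N : Z0 (mdc A)) (i : I), Fin U.n →
      GD.Hom ((P286EK.mo ((Res A).z0.obj N)).M i).toGD ((ho (bar.z0.obj N)).fa.M (Zo xd i)).G)
    (bE_hit : ∀ N i, Hit xd U (ho (bar.z0.obj N)).fa i _ (bE N i))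
    (un_E : ∀ N i k x, (xiE (bar.z0.obj N) i k).f ((mh (un.app N) i).f x) = (bE N i k).f x)
    (c_E : ∀ L i k x, (piZ L (Zo xd i)).f ((M.gz (gO L) (Zo xd i)).f
        ((oh (c.app (gO L)) (Zo xd i)).f
        (inn (bar.z0.obj (xi.z0.obj (gO L))) (Zo xd i) ((bE (xi.z0.obj (gO L)) i k).f x)))) =
      (xiE L i k).f ((mh ((epsT A).app (xi.z0.obj (gO L))) i).f x)) :
    Kt xd U ⟨A, cf, h1, h2, h3⟩ S M :=
  ⟨bar, xi, un, c, xiE, evh, xiE_nat, xiE_cf, xiE_ρ, bar_fc, bar_q, bE, bE_hit, un_E, c_E⟩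

namespace PD

variable (P : PD K xd s U)

/-- The parts of the equivalence. -/
def kt : Kt xd U P.dc (K.gs D s) (mdQ K D s) :=
  Kt.of (h1 := P.cf_gr) (h2 := P.cf_d) (h3 := P.cf_τ) (barD P) P.xiD P.un P.cou P.xE P.evh_xE P.xE_nat
    P.xE_cf P.xE_ρ P.fc_Z (fun a h X => P.bd.qis_barD a X (h _)) P.bE P.bE_hit P.un_xE
    fun L i k x => (congrArg (piZ L (Zo xd i)).f (P.gz_cou (gO L) i k x)).trans
      (P.xE_eq L i k _).symm

end PD

/-- **The crystals are the cartesian modules over the endomorphisms of the generator.** -/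
theorem gen : GEN := fun _ _ _ _ _ _ _ _ hU P => P.kt.eqv refl cartf hU

end

end Vale.Agent.P286EX
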