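import Vale.Agent.P286.H697.DRF
import Vale.Agent.P286.H353.GtC
import Vale.Agent.P286E.QS

/-!
# Twisted families of modules over the forms, gauge families, the group kit
-/

set_option linter.all false

namespace Vale.Agent.P286EX

open CategoryTheory Matrix TensorProduct Vale.Agent.P286 Vale.Agent.P286.St Vale.Agent.P286.H847
  Vale.Agent.P286.H353 Vale.Agent.P286.H710 Vale.Agent.P286.H697 Vale.Agent.P286E

noncomputable section

universe u w

/-! ### DG categories of families -/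

/-- Families of graded differential spaces with a class of cochains. -/
structure FamD (ι : Type u) (Ob : Type w) where
  G : Ob → ι → GD
  P : ∀ (F F' : Ob) (_ : ℤ), Submodule ℂ (∀ X, (G F X).V →ₗ[ℂ] (G F' X).V)
  deg : ∀ {F F' n u}, u ∈ P F F' n → ∀ X m x, x ∈ (G F X).gr m → u X x ∈ (G F' X).gr (m + n)
  one : ∀ F, (fun _ => LinearMap.id) ∈ P F F 0
  cmp : ∀ {F F' F'' m n p u v}, m + n = p → u ∈ P F F' m → v ∈ P F' F'' n →
    (fun X => (v X).comp (u X)) ∈ P F F'' p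
  dl : ∀ {F F' n u}, u ∈ P F F' n →
    (fun X => (G F' X).d.comp (u X) - (n.negOnePow : ℤ) • (u X).comp (G F X).d) ∈ P F F' (n + 1)

namespace FamD

variable {ι : Type u} {Ob : Type w} (Φ : FamD ι Ob)

/-- The differential of cochains. -/
def dif {F F' : Ob} (m n : ℤ) (u : Φ.P F F' m) : Φ.P F F' n :=
  if h : m + 1 = n then ⟨fun X => (Φ.G F' X).d.comp (u.1 X) -
    (m.negOnePow : ℤ) • (u.1 X).comp (Φ.G F X).d, h ▸ Φ.dl u.2⟩ else 0

theorem dif_f {F F' : Ob} {m n : ℤ} (h : m + 1 = n) (u : Φ.P F F' m) (X : ι) (x : (Φ.G F X).V) :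
    (Φ.dif m n u).1 X x =
      (Φ.G F' X).d (u.1 X x) - (m.negOnePow : ℤ) • u.1 X ((Φ.G F X).d x) := by
  rw [dif, dif_pos h]; rfl

theorem dif_ne {F F' : Ob} {m n : ℤ} (h : ¬ m + 1 = n) (u : Φ.P F F' m) : Φ.dif m n u = 0 :=
  dif_neg h

theorem ext' {F F' : Ob} {n : ℤ} {u v : Φ.P F F' n} (h : ∀ X x, u.1 X x = v.1 X x) : u = v :=
  Subtype.ext (funext fun X => LinearMap.ext (h X))

theorem dif_zero_iff {F F' : Ob} (u : Φ.P F F' 0) :
    Φ.dif 0 1 u = 0 ↔ ∀ X x, u.1 X ((Φ.G F X).d x) = (Φ.G F' X).d (u.1 X x) := by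
  constructor
  · intro h X x
    have h1 := congrArg (fun w : Φ.P F F' 1 => w.1 X x) h
    simp only [Φ.dif_f (zero_add 1), Int.negOnePow_zero, Units.val_one, one_smul] at h1
    exact (sub_eq_zero.1 h1).symm
  · intro h
    refine Φ.ext' fun X x => ?_
    rw [Φ.dif_f (zero_add 1), h]
    simp

/-- The DG category. -/
def dgc : DGC.{w, u} where
  Obj := Ob
  Hom F F' n := Φ.P F F' n
  one F := ⟨_, Φ.one F⟩
  comp h u v := ⟨_, Φ.cmp h u.2 v.2⟩
  d m n u := Φ.dif m n u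
  one_comp _ := rfl
  comp_one _ := rfl
  assoc _ _ _ := rfl
  d_one F := (Φ.dif_zero_iff _).2 fun _ _ => rfl
  d_comp f g hf hg := (Φ.dif_zero_iff _).2 fun X x => by
    have h1 := (Φ.dif_zero_iff f).1 hf X x
    have h2 := (Φ.dif_zero_iff g).1 hg X (f.1 X x)
    exact (congrArg (g.1 X) h1).trans h2

/-- The component of a closed morphism of degree `0`. -/
def hom {F F' : Z0 Φ.dgc} (a : F ⟶ F') (X : ι) : GD.Hom (Φ.G F X) (Φ.G F' X) where
  f := (zf a : Φ.P F F' 0).1 X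
  comm := (Φ.dif_zero_iff (zf a)).1 (zf_cl a) X
  deg m x hx := by
    have h := Φ.deg (zf a : Φ.P F F' 0).2 X m x hx
    rwa [add_zero] at h

/-- The closed morphism with given components. -/
def mk0 {F F' : Ob} (u : ∀ X, GD.Hom (Φ.G F X) (Φ.G F' X)) (h : (fun X => (u X).f) ∈ Φ.P F F' 0) :
    zo (C := Φ.dgc) F ⟶ zo (C := Φ.dgc) F' :=
  zmk (C := Φ.dgc) (⟨_, h⟩ : Φ.P F F' 0) ((Φ.dif_zero_iff _).2 fun X => (u X).comm)

end FamD

/-! ### Twisted families of modules over the forms -/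

/-- Test categories with a strict functor to algebras and a cocycle of units. -/
structure Good (T : TSite) : Prop where
  fid : ∀ X : T.C, T.f (𝟙 X) = AlgHom.id ℂ (T.R X)
  fcomp : ∀ {X Y Z : T.C} (φ : X ⟶ Y) (ψ : Y ⟶ Z), T.f (φ ≫ ψ) = (T.f ψ).comp (T.f φ)
  unit : ∀ {X Y : T.C} (φ : X ⟶ Y), IsUnit (T.dl φ)
  dl_id : ∀ X : T.C, T.dl (𝟙 X) = 1
  dl_comp : ∀ {X Y Z : T.C} (φ : X ⟶ Y) (ψ : Y ⟶ Z), T.dl (φ ≫ ψ) = T.f ψ (T.dl φ) * T.dl ψ
  cen : ∀ X : T.C, T.cen X = ∅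

variable {T : TSite}

/-- The form `s dlog δ`. -/
def eta (T : TSite) {X Y : T.C} (φ : X ⟶ Y) : Om ℂ (T.R Y) :=
  (algebraMap ℂ (T.R Y) T.s * Ring.inverse (T.dl φ)) • Om.dd (T.dl φ)

theorem eta_mem {X Y : T.C} (φ : X ⟶ Y) : eta T φ ∈ Om.gr ℂ (T.R Y) 1 :=
  Submodule.smul_mem _ _ (Om.dd_mem _)

theorem sgz_eta {X Y : T.C} (φ : X ⟶ Y) (n : ℤ) :
    Om.sgz n (eta T φ) = (n.negOnePow : ℤ) • eta T φ := by
  rw [eta, map_smul, Om.sgz_dd, smul_comm]

/-- A family of DG modules over the forms; the transition maps commute with the differentials up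
to the form `s dlog δ`. -/
structure OT (T : TSite) : Type 1 where
  F : ∀ X : T.C, OmM (T.R X)
  t : ∀ {X Y : T.C}, (X ⟶ Y) → ((F X).M.V →ₗ[ℂ] (F Y).M.V)
  t_gr : ∀ {X Y : T.C} (φ : X ⟶ Y) (m : ℤ) (x : (F X).M.V), x ∈ (F X).M.gr m →
    t φ x ∈ (F Y).M.gr m
  t_d : ∀ {X Y : T.C} (φ : X ⟶ Y) (x : (F X).M.V),
    (F Y).M.d (t φ x) = t φ ((F X).M.d x) - eta T φ • t φ x
  t_smul : ∀ {X Y : T.C} (φ : X ⟶ Y) (w : Om ℂ (T.R X)) (x : (F X).M.V),
    t φ (w • x) = Om.pb (T.f φ) w • t φ x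
  t_id : ∀ (X : T.C) (x : (F X).M.V), t (𝟙 X) x = x
  t_comp : ∀ {X Y Z : T.C} (φ : X ⟶ Y) (ψ : Y ⟶ Z) (x : (F X).M.V),
    t (φ ≫ ψ) x = t ψ (t φ x)

/-- Cochains of twisted families. -/
structure OT.IsCo (F F' : OT T) (n : ℤ) (u : ∀ X, (F.F X).M.V →ₗ[ℂ] (F'.F X).M.V) : Prop where
  deg : ∀ X m x, x ∈ (F.F X).M.gr m → u X x ∈ (F'.F X).M.gr (m + n)
  smul : ∀ X (w : Om ℂ (T.R X)) x, u X (w • x) = Om.sgz n w • u X x
  tr : ∀ {X Y : T.C} (φ : X ⟶ Y) x, u Y (F.t φ x) = F'.t φ (u X x)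

/-- The twisted families. -/
def otF (T : TSite) : FamD T.C (OT T) where
  G F X := (F.F X).M
  P F F' n :=
    { carrier := {u | OT.IsCo F F' n u}
      add_mem' := fun {u v} hu hv => ⟨fun X m x h => add_mem (hu.deg X m x h) (hv.deg X m x h),
        fun X w x => by simp [hu.smul, hv.smul], fun φ x => by simp [hu.tr, hv.tr]⟩
      zero_mem' := ⟨fun _ _ _ _ => zero_mem _, by simp, by simp⟩
      smul_mem' := fun c u hu => ⟨fun X m x h => Submodule.smul_mem _ c (hu.deg X m x h),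
        fun X w x => by
          rw [Pi.smul_apply, LinearMap.smul_apply, LinearMap.smul_apply, hu.smul,
            OmF.Coch.smul_comm'], fun φ x => by simp [hu.tr]⟩ }
  deg h := h.deg
  one F := ⟨fun _ m x h => by simpa using h, fun _ w x => by simp, fun _ _ => rfl⟩
  cmp {F F' F'' m n p u v} h hu hv := ⟨fun X k x hx => by
      have := hv.deg X _ _ (hu.deg X k x hx)
      rwa [add_assoc, h] at this,
    fun X a x => by
      rw [LinearMap.comp_apply, hu.smul, hv.smul, Om.sgz_sgz, add_comm n m, h]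
      rfl,
    fun φ x => by simp [hu.tr, hv.tr]⟩
  dl {F F' n u} hu := ⟨fun X k x hx => by
      have h1 := (F'.F X).M.dgr' (n := k + (n + 1)) (by omega) (hu.deg X k x hx)
      have h2 := hu.deg X _ _ ((F.F X).M.dgr k x hx)
      rw [show k + 1 + n = k + (n + 1) by omega] at h2
      exact sub_mem h1 (zsmul_mem h2 _),
    fun X a x => by
      simp only [LinearMap.sub_apply, LinearMap.comp_apply, LinearMap.smul_apply, hu.smul,
        (F.F X).leib, (F'.F X).leib, map_add, smul_add, smul_sub]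
      rw [Om.sg_sgz, Om.sgz_sg, Om.d_sgz]
      have e1 : ∀ (k : ℤ) (w : Om ℂ (T.R X)) (y : (F'.F X).M.V), (k • w) • y = k • (w • y) :=
        fun k w y => smul_assoc k w y
      have e2 : ∀ (k : ℤ) (w : Om ℂ (T.R X)) (y : (F'.F X).M.V), k • (w • y) = w • (k • y) :=
        fun k w y => smul_comm k w y
      rw [e1, e2 _ (Om.sgz (n + 1) a)]
      abel,
    fun {X Y} φ x => by
      simp only [LinearMap.sub_apply, LinearMap.comp_apply, LinearMap.smul_apply, map_sub,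
        map_zsmul]
      have e1 : ∀ (k : ℤ) (w : Om ℂ (T.R Y)) (y : (F'.F Y).M.V), (k • w) • y = k • (w • y) :=
        fun k w y => smul_assoc k w y
      rw [hu.tr, F'.t_d, F.t_d, map_sub, hu.smul, hu.tr, hu.tr, sgz_eta, e1, smul_sub, smul_smul,
        ← Units.val_mul, Int.units_mul_self, Units.val_one, one_smul]
      abel⟩

/-- The DG category of twisted families. -/
abbrev otc (T : TSite) : DGC.{1, 1} := (otF T).dgc

/-! ### Gauge families -/

/-- The sign of the permutation `(a, b, c)`. -/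
def eps (a b c : Fin 3) : ℂ :=
  ![![![0, 0, 0], ![0, 0, 1], ![0, -1, 0]], ![![0, 0, -1], ![0, 0, 0], ![1, 0, 0]],
    ![![0, 1, 0], ![-1, 0, 0], ![0, 0, 0]]] a b c

/-- A one-form as a form. -/
abbrev io1 {A : Type} [CommRing A] [Algebra ℂ A] (m : Ω[A⁄ℂ]) : Om ℂ A := ExteriorAlgebra.ι A m

/-- The gauge data of a test category: for an arrow with the gauge transformation `h`,
`h β_b h⁻¹ = ∑ ad a b β_a` and `dh h⁻¹ = ∑ th a β_a`, `[β_a, β_b] = κ ∑ ε_abc β_c`. -/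
structure GS (T : TSite) where
  good : Good T
  κ : ℂ
  ad : ∀ {X Y : T.C}, (X ⟶ Y) → Matrix (Fin 3) (Fin 3) (T.R Y)
  th : ∀ {X Y : T.C}, (X ⟶ Y) → Fin 3 → Ω[T.R Y⁄ℂ]
  ad_id : ∀ X : T.C, ad (𝟙 X) = 1
  ad_comp : ∀ {X Y Z : T.C} (φ : X ⟶ Y) (ψ : Y ⟶ Z), ad (φ ≫ ψ) = ad ψ * (ad φ).map (T.f ψ)
  th_id : ∀ (X : T.C) (a : Fin 3), th (𝟙 X) a = 0
  th_comp : ∀ {X Y Z : T.C} (φ : X ⟶ Y) (ψ : Y ⟶ Z) (a : Fin 3),
    io1 (th (φ ≫ ψ) a) = io1 (th ψ a) + ∑ b, ad ψ a b • Om.pb (T.f ψ) (io1 (th φ b))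
  mc : ∀ {X Y : T.C} (φ : X ⟶ Y) (c : Fin 3), Om.d (io1 (th φ c)) =
    ∑ a, ∑ b, (κ / 2 * eps a b c) • (io1 (th φ a) * io1 (th φ b))

/-- The operator `d i + i d`. -/
def lieOp {A : Type} [CommRing A] [Algebra ℂ A] (K : DGM A) (i : K.M.V →ₗ[A] K.M.V) :
    K.M.V →ₗ[A] K.M.V := K.dA ∘ₗ i + i ∘ₗ K.dA

theorem lieOp_apply {A : Type} [CommRing A] [Algebra ℂ A] (K : DGM A) (i : K.M.V →ₗ[A] K.M.V)
    (x : K.M.V) : lieOp K i x = K.M.d (i x) + i (K.M.d x) := rfl

/-- A family of complexes of `D`-modules whose transition maps are horizontal up to the twist and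
up to the null-homotopic operators `θ^a (d i_a + i_a d)`. -/
structure HG (S : GS T) : Type 1 where
  K : ∀ X : T.C, DGM (T.R X)
  i : ∀ X : T.C, Fin 3 → ((K X).M.V →ₗ[T.R X] (K X).M.V)
  i_gr : ∀ X a (m : ℤ) x, x ∈ (K X).M.gr m → i X a x ∈ (K X).M.gr (m - 1)
  i_act : ∀ X a v x, i X a ((K X).C.act v x) = (K X).C.act v (i X a x)
  i_i : ∀ X a b x, i X a (i X b x) = - i X b (i X a x)
  i_br : ∀ X a b x, lieOp (K X) (i X a) (i X b x) - i X b (lieOp (K X) (i X a) x) =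
    ∑ c, (S.κ * eps a b c) • i X c x
  t : ∀ {X Y : T.C}, (X ⟶ Y) → GD.Hom (K X).M (K Y).M
  t_smul : ∀ {X Y : T.C} (φ : X ⟶ Y) (a : T.R X) x, (t φ).f (a • x) = T.f φ a • (t φ).f x
  t_id : ∀ (X : T.C) x, (t (𝟙 X)).f x = x
  t_comp : ∀ {X Y Z : T.C} (φ : X ⟶ Y) (ψ : Y ⟶ Z) x, (t (φ ≫ ψ)).f x = (t ψ).f ((t φ).f x)
  t_i : ∀ {X Y : T.C} (φ : X ⟶ Y) b x, (t φ).f (i X b x) = ∑ a, S.ad φ a b • i Y a ((t φ).f x)
  t_act : ∀ {X Y : T.C} (φ : X ⟶ Y) (w : Derivation ℂ (T.R Y) (T.R Y)) (n : ℕ)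
    (c : Fin n → T.R Y) (v : Fin n → Derivation ℂ (T.R X) (T.R X)),
    (∀ a, w (T.f φ a) = ∑ k, c k * T.f φ (v k a)) → ∀ x,
    (K Y).C.act w ((t φ).f x) = ∑ k, c k • (t φ).f ((K X).C.act (v k) x) -
      (algebraMap ℂ (T.R Y) T.s * Ring.inverse (T.dl φ) * w (T.dl φ)) • (t φ).f x +
      ∑ a, w.liftKaehlerDifferential (S.th φ a) • lieOp (K Y) (i Y a) ((t φ).f x)

variable {S : GS T}

/-- Cochains of gauge families. -/
structure HG.IsCo (K K' : HG S) (n : ℤ) (u : ∀ X, (K.K X).M.V →ₗ[ℂ] (K'.K X).M.V) : Prop where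
  deg : ∀ X m x, x ∈ (K.K X).M.gr m → u X x ∈ (K'.K X).M.gr (m + n)
  smul : ∀ X (a : T.R X) x, u X (a • x) = a • u X x
  act : ∀ X v x, u X ((K.K X).C.act v x) = (K'.K X).C.act v (u X x)
  i : ∀ X a x, u X (K.i X a x) = (n.negOnePow : ℤ) • K'.i X a (u X x)
  lie : ∀ X a x, u X (lieOp (K.K X) (K.i X a) x) = lieOp (K'.K X) (K'.i X a) (u X x)
  tr : ∀ {X Y : T.C} (φ : X ⟶ Y) x, u Y ((K.t φ).f x) = (K'.t φ).f (u X x)

theorem act_add' {A : Type} [CommRing A] [Algebra ℂ A] (K : DGM A) (v : Derivation ℂ A A)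
    (x y : K.M.V) : K.C.act v (x + y) = K.C.act v x + K.C.act v y := K.C.act_add v x y

theorem act_csmul {A : Type} [CommRing A] [Algebra ℂ A] (K : DGM A) (v : Derivation ℂ A A) (c : ℂ)
    (x : K.M.V) : K.C.act v (c • x) = c • K.C.act v x := by
  rw [← algebraMap_smul A c x, K.C.leibniz, Derivation.map_algebraMap, zero_smul, zero_add,
    algebraMap_smul]

/-- The action of a vector field as a linear map. -/
def actL {A : Type} [CommRing A] [Algebra ℂ A] (K : DGM A) (v : Derivation ℂ A A) :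
    K.M.V →ₗ[ℂ] K.M.V where
  toFun := K.C.act v
  map_add' := act_add' K v
  map_smul' := act_csmul K v

theorem actL_apply {A : Type} [CommRing A] [Algebra ℂ A] (K : DGM A) (v : Derivation ℂ A A)
    (x : K.M.V) : actL K v x = K.C.act v x := rfl

theorem d_lieOp {A : Type} [CommRing A] [Algebra ℂ A] (K : DGM A) (i : K.M.V →ₗ[A] K.M.V)
    (x : K.M.V) : K.M.d (lieOp K i x) = lieOp K i (K.M.d x) := by
  rw [lieOp_apply, lieOp_apply, map_add, K.M.dd, K.M.dd, map_zero, zero_add, add_zero]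

/-- The gauge families. -/
def hgF (S : GS T) : FamD T.C (HG S) where
  G K X := (K.K X).M
  P K K' n :=
    { carrier := {u | HG.IsCo K K' n u}
      add_mem' := fun {u v} hu hv => ⟨fun X m x h => add_mem (hu.deg X m x h) (hv.deg X m x h),
        fun X w x => by simp [hu.smul, hv.smul],
        fun X w x => by simp only [Pi.add_apply, LinearMap.add_apply, hu.act, hv.act, act_add'],
        fun X w x => by
          simp only [Pi.add_apply, LinearMap.add_apply, hu.i, hv.i, map_add, smul_add],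
        fun X w x => by simp only [Pi.add_apply, LinearMap.add_apply, hu.lie, hv.lie, map_add],
        fun φ x => by simp [hu.tr, hv.tr]⟩
      zero_mem' := ⟨fun _ _ _ _ => zero_mem _, by simp,
        fun X v x => (map_zero (actL (K'.K X) v)).symm, by simp, by simp, by simp⟩
      smul_mem' := fun c u hu => ⟨fun X m x h => Submodule.smul_mem _ c (hu.deg X m x h),
        fun X w x => by
          rw [Pi.smul_apply, LinearMap.smul_apply, LinearMap.smul_apply, hu.smul, smul_comm],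
        fun X w x => by
          rw [Pi.smul_apply, LinearMap.smul_apply, LinearMap.smul_apply, hu.act, act_csmul],
        fun X w x => by
          rw [Pi.smul_apply, LinearMap.smul_apply, LinearMap.smul_apply, hu.i,
            LinearMap.map_smul_of_tower, smul_comm],
        fun X w x => by
          rw [Pi.smul_apply, LinearMap.smul_apply, LinearMap.smul_apply, hu.lie,
            LinearMap.map_smul_of_tower],
        fun φ x => by simp [hu.tr]⟩ }
  deg h := h.deg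
  one F := ⟨fun _ m x h => by simpa using h, fun _ _ _ => rfl, fun _ _ _ => rfl,
    fun _ _ _ => by simp, fun _ _ _ => rfl, fun _ _ => rfl⟩
  cmp {F F' F'' m n p u v} h hu hv := ⟨fun X k x hx => by
      have := hv.deg X _ _ (hu.deg X k x hx)
      rwa [add_assoc, h] at this,
    fun X a x => by simp only [LinearMap.comp_apply, hu.smul, hv.smul],
    fun X a x => by simp only [LinearMap.comp_apply, hu.act, hv.act],
    fun X a x => by
      simp only [LinearMap.comp_apply, hu.i, map_zsmul, hv.i, smul_smul]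
      rw [← h, Int.negOnePow_add, Units.val_mul],
    fun X a x => by simp only [LinearMap.comp_apply, hu.lie, hv.lie],
    fun φ x => by simp only [LinearMap.comp_apply, hu.tr, hv.tr]⟩
  dl {F F' n u} hu := ⟨fun X k x hx => by
      have h1 := (F'.K X).M.dgr' (n := k + (n + 1)) (by omega) (hu.deg X k x hx)
      have h2 := hu.deg X _ _ ((F.K X).M.dgr k x hx)
      rw [show k + 1 + n = k + (n + 1) by omega] at h2
      exact sub_mem h1 (zsmul_mem h2 _),
    fun X a x => by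
      simp only [LinearMap.sub_apply, LinearMap.comp_apply, LinearMap.smul_apply, hu.smul,
        (F.K X).d_smul, (F'.K X).d_smul, smul_sub]
      rw [smul_comm a],
    fun X v x => by
      simp only [LinearMap.sub_apply, LinearMap.comp_apply, LinearMap.smul_apply, hu.act,
        (F.K X).d_act, (F'.K X).d_act, ← actL_apply, map_sub, map_zsmul]
      simp only [actL_apply, hu.act, (F.K X).d_act, (F'.K X).d_act],
    fun X a x => by
      have e1 : (F.K X).M.d (F.i X a x) = lieOp _ (F.i X a) x - F.i X a ((F.K X).M.d x) := by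
        rw [lieOp_apply, add_sub_cancel_right]
      have e2 : ∀ y, (F'.K X).M.d (F'.i X a y) =
          lieOp _ (F'.i X a) y - F'.i X a ((F'.K X).M.d y) := fun y => by
        rw [lieOp_apply, add_sub_cancel_right]
      simp only [LinearMap.sub_apply, LinearMap.comp_apply, LinearMap.smul_apply, map_sub,
        map_zsmul, e1, hu.i, hu.lie, e2, Int.negOnePow_succ, Units.val_neg, smul_sub, neg_smul]
      abel,
    fun X a x => by
      simp only [LinearMap.sub_apply, LinearMap.comp_apply, LinearMap.smul_apply, map_sub,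
        map_zsmul, hu.lie, d_lieOp],
    fun {X Y} φ x => by
      simp only [LinearMap.sub_apply, LinearMap.comp_apply, LinearMap.smul_apply, map_sub,
        map_zsmul]
      rw [hu.tr, ← (F'.t φ).comm, ← (F.t φ).comm, hu.tr]⟩

/-- The DG category of gauge families. -/
abbrev hgc (S : GS T) : DGC.{1, 1} := (hgF S).dgc

/-! ### The group kit -/

section Grp

variable {B : Type} [CommRing B] [Algebra ℂ B]

/-- The basis of the Lie algebra over `B`. -/
def bt (G : Grp) (B : Type) [CommRing B] [Algebra ℂ B] (a : Fin 3) :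
    Matrix (Fin G.N) (Fin G.N) B := (G.β a).map (algebraMap ℂ B)

/-- The matrix of the adjoint action. -/
def adm (G : Grp) (h : Matrix (Fin G.N) (Fin G.N) B) : Matrix (Fin 3) (Fin 3) B :=
  of fun a b => (2⁻¹ : ℂ) • trace (bt G B a * h * bt G B b * h.adjugate)

/-- The components of the form `dh h⁻¹`. -/
def thm (G : Grp) (h : Matrix (Fin G.N) (Fin G.N) B) (a : Fin 3) : Ω[B⁄ℂ] :=
  (2⁻¹ : ℂ) • ∑ p, ∑ q, (h.adjugate * bt G B a) q p • KaehlerDifferential.D ℂ B (h p q)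

end Grp

/-- The coordinate ring of `G` with its invariant vector fields and the invariant integral. -/
structure GK (G : Grp) : Type 1 where
  O : SmAlg
  g : Matrix (Fin G.N) (Fin G.N) O.R
  pt : G.Pt g
  ev : ∀ {B : Type} [CommRing B] [Algebra ℂ B] (h : Matrix (Fin G.N) (Fin G.N) B),
    G.Pt h → (O.R →ₐ[ℂ] B)
  ev_g : ∀ {B : Type} [CommRing B] [Algebra ℂ B] (h : Matrix (Fin G.N) (Fin G.N) B) (hh : G.Pt h),
    g.map (ev h hh) = h
  ext : ∀ {B : Type} [CommRing B] [Algebra ℂ B] (φ ψ : O.R →ₐ[ℂ] B), g.map φ = g.map ψ → φ = ψ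
  κ : ℂ
  κ_ne : κ ≠ 0
  br : ∀ a b, G.β a * G.β b - G.β b * G.β a = ∑ c, (κ * eps a b c) • G.β c
  tr : ∀ a b, trace (G.β a * G.β b) = if a = b then 2 else 0
  adj : ∀ {B : Type} [CommRing B] [Algebra ℂ B] {h : Matrix (Fin G.N) (Fin G.N) B}, G.Pt h →
    G.Pt h.adjugate
  ad_eq : ∀ {B : Type} [CommRing B] [Algebra ℂ B] {h : Matrix (Fin G.N) (Fin G.N) B}, G.Pt h →
    ∀ b, h * bt G B b = (∑ a, adm G h a b • bt G B a) * h
  th_eq : ∀ {B : Type} [CommRing B] [Algebra ℂ B] {h : Matrix (Fin G.N) (Fin G.N) B}, G.Pt h →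
    ∀ p q, KaehlerDifferential.D ℂ B (h p q) = ∑ a, (bt G B a * h) p q • thm G h a
  R : Fin 3 → Derivation ℂ O.R O.R
  R_g : ∀ a, g.map (R a) = bt G O.R a * g
  L : Fin 3 → Derivation ℂ O.R O.R
  L_g : ∀ a, g.map (L a) = g * bt G O.R a
  haar : O.R →ₗ[ℂ] ℂ
  haar_one : haar 1 = 1
  haar_l : ∀ {B : Type} [CommRing B] [Algebra ℂ B] (h : Matrix (Fin G.N) (Fin G.N) B)
    (φ : O.R →ₐ[ℂ] B ⊗[ℂ] O.R),
    g.map φ = h.map (Algebra.TensorProduct.includeLeft : B →ₐ[ℂ] B ⊗[ℂ] O.R) *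
      g.map (Algebra.TensorProduct.includeRight : O.R →ₐ[ℂ] B ⊗[ℂ] O.R) →
    ∀ f, TensorProduct.rid ℂ B (haar.lTensor B (φ f)) = algebraMap ℂ B (haar f)
  const : ∀ f : O.R, (∀ a, L a f = 0) → ∃ c : ℂ, f = algebraMap ℂ O.R c
  lf : ∀ f : O.R, ∃ W : Submodule ℂ O.R, f ∈ W ∧ Module.Finite ℂ W ∧ ∀ a, ∀ x ∈ W, L a x ∈ W

/-- A representation of `G`. -/
structure Rep {G : Grp} (K : GK G) : Type where
  n : ℕ
  r : Matrix (Fin n) (Fin n) K.O.R
  r_one : r.map (K.ev (1 : Matrix _ _ ℂ) (Grp.Pt.one G)) = 1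
  r_mul : ∀ {B : Type} [CommRing B] [Algebra ℂ B] {h k : Matrix (Fin G.N) (Fin G.N) B}
    (hh : G.Pt h) (hk : G.Pt k),
    r.map (K.ev (h * k) (hh.mul hk)) = r.map (K.ev h hh) * r.map (K.ev k hk)
  dr : Fin 3 → Matrix (Fin n) (Fin n) ℂ
  L_r : ∀ a, r.map (K.L a) = r * (dr a).map (algebraMap ℂ K.O.R)
  R_r : ∀ a, r.map (K.R a) = (dr a).map (algebraMap ℂ K.O.R) * r

/-- The representation sees all highest weight vectors of spin `0` and `1/2`: a locally finite
module embedded in `O(G) ⊗ M'` with a vector killed by `e = b₀ + i b₁`, of weight `0` or `1` for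
`b₂`, `b = (2 i / κ) μ`, has a nonzero equivariant map from the representation. -/
def Rep.Low {G : Grp} {K : GK G} (U : Rep K) : Prop :=
  ∀ (M M' : Type) [AddCommGroup M] [Module ℂ M] [AddCommGroup M'] [Module ℂ M']
    (μ : Fin 3 → M →ₗ[ℂ] M) (ρ : M →ₗ[ℂ] K.O.R ⊗[ℂ] M'), Function.Injective ρ →
    (∀ a m, ρ (μ a m) = (K.L a).toLinearMap.rTensor M' (ρ m)) →
    ∀ m : M, m ≠ 0 → μ 0 m + Complex.I • μ 1 m = 0 →
    ((2 * Complex.I / K.κ) • μ 2 m = 0 ∨ (2 * Complex.I / K.κ) • μ 2 m = m) →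
    ∃ η : Fin U.n → M, η ≠ 0 ∧ ∀ a k, μ a (η k) = ∑ l, U.dr a l k • η l

end

end Vale.Agent.P286EX
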