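import Vale.Agent.P286EX.Hit
import Vale.Agent.P286EH.Gc
import Vale.Agent.P286EK.Mor

/-!
# The assembly of the equivalence from its parts
-/

set_option linter.all false

namespace Vale.Agent.P286EX

open CategoryTheory Matrix TensorProduct Vale.Agent.P286 Vale.Agent.P286.St Vale.Agent.P286.H847
  Vale.Agent.P286.H353 Vale.Agent.P286E Vale.Agent.P286EG Vale.Agent.P286EK

noncomputable section

universe u₁ v₁ u₂ v₂

/-- Functors which are inverse to each other on full subcategories. -/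
theorem inv_restr {C : DGC.{u₁, v₁}} {E : DGC.{u₂, v₂}} {P : C.Obj → Prop} {Q : E.Obj → Prop}
    {W : MorphismProperty (Z0 C)} {W' : MorphismProperty (Z0 E)} {Φ : DGF C E} {Ψ : DGF E C}
    (hP : Invt W P) (hQ : Invt W' Q) (hΦ : ∀ X, P X → Q (Φ.obj X)) (hΨ : ∀ Y, Q Y → P (Ψ.obj Y))
    (pΦ : ∀ ⦃X Y : Z0 C⦄ (a : X ⟶ Y), P (ob X) → P (ob Y) → W a → W' (Φ.z0.map a))
    (pΨ : ∀ ⦃X Y : Z0 E⦄ (a : X ⟶ Y), W' a → W (Ψ.z0.map a))
    (un : Zig W ((DGF.incl C P).z0 ⋙ Φ.z0 ⋙ Ψ.z0) ((DGF.incl C P).z0 ⋙ 𝟭 _))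
    (co : Zig W' (Ψ.z0 ⋙ Φ.z0) (𝟭 _)) :
    Inv (fullW W P) (fullW W' Q) (Φ.restr hΦ).z0 (Ψ.restr hΨ).z0 where
  pF X Y a ha := pΦ (zup a) (ob X).2 (ob Y).2 ha
  pG _ _ a ha := pΨ (zup a) ha
  un := zig_lift hP un (fun X => hΨ _ (hΦ _ (ob X).2)) (fun X => (ob X).2)
  co := zig_lift hQ (co.left (DGF.incl E Q).z0) (fun X => hΦ _ (hΨ _ (ob X).2))
    (fun X => (ob X).2)

section Comp

variable {T : TSite} {S : GS T}

/-- The gauge family of an object. -/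
def ho (L : Z0 (hgc S)) : HG S := L

/-- The component of a closed morphism of gauge families. -/
def hh {L L' : Z0 (hgc S)} (a : L ⟶ L') (X : T.C) : GD.Hom ((ho L).K X).M ((ho L').K X).M :=
  (hgF S).hom a X

/-- The morphism of the underlying families. -/
def gfh {F F' : Z0 (gtc T)} (a : F ⟶ F') : FA.Hom (gfa (gt F)) (gfa (gt F')) :=
  ⟨gh a, (gz a).fn, (gz a).tr⟩

theorem gh_comp {F F' F'' : Z0 (gtc T)} (a : F ⟶ F') (b : F' ⟶ F'') (X : T.C) (x) :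
    (gh (a ≫ b) X).f x = (gh b X).f ((gh a X).f x) := rfl

theorem invt_gc (T : TSite) : Invt (gqis T) (P286EH.GP T) := fun F F' a ha =>
  ⟨fun h => GC.fwd (F := gt F) (G := gt F') h (gh a) (gz a).fn (gz a).tr ha,
    fun h => GC.rev (F := gt F) (G := gt F') h (gh a) (gz a).fn (gz a).tr ha⟩

end Comp

variable {I : Type} [SmallCategory I] {D : CD I} {G : Grp} {s : ℂ} {K : GK G} {xd : XD D}
  {U : Rep K}

theorem DC.sl (B : DC D) (N : DM B.A) {i j : I} (α : i ⟶ j) : Sl (D.κ α : D.C i →+* D.C j)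
    (mag (B.cf i) (B.cf_gr i) (B.cf_d i) (N.M i)) (mag (B.cf j) (B.cf_gr j) (B.cf_d j) (N.M j))
    (N.ρ α) := fun z x =>
  (N.ρ_act α (B.cf i z) x).trans (congrArg (fun b => (N.M j).act b ((N.ρ α).f x)) (B.cf_τ α z))

theorem invt_cart' (xd : XD D) (B : DC D) : Invt (mqis B.A) B.Cart := fun N N' a ha => by
  refine ⟨fun h i j α => ?_, fun h i j α => ?_⟩
  · haveI := xd.sm i
    exact (h i j α).fwd (B.sl (mo N') α)
      (fun z x => mh_act a i _ x) (fun z x => mh_act a j _ x) (ha i) (ha j) (mh_tr a α)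
  · exact (h i j α).rev (B.sl (mo N) α)
      (fun z x => mh_act a i _ x) (fun z x => mh_act a j _ x) (ha i) (ha j) (mh_tr a α)

theorem fc_of_gc {F : GTD (QS D G s)} (h : GC F) : FC (gfa F) := fun _ _ u _ => h.db u

/-- A fibre-cartesian family is cartesian if it is so along the arrows between the universal
points. -/
theorem gc_of_fc (K : GK G) (xd : XD D) {F : GTD (QS D G s)} (h : FC (gfa F))
    (hz : ∀ (i j : I) (α : i ⟶ j),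
      DB (QM.φ (Za K xd s α)).r (ag F (Zo xd i)) (ag F (Zo xd j)) (F.tr (Za K xd s α))) :
    GC F := by
  refine (gc_iff F).2 fun (X : QO D) (Y : QO D) (u : Ar G s X Y) => ?_
  let w : Ar G s (Zo xd Y.i) Y := zar K xd s Y (𝟙 Y.i) (QM.h u) (QM.pt u)
  have e : zA K xd s X ≫ u = Za K xd s (QM.α u) ≫ w :=
    zar_ext K xd ((Category.id_comp _).trans (Category.comp_id _).symm)
      (((congrArg (QM.h u * ·) (map_one' _)).trans (Matrix.mul_one _)).trans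
        ((congrArg (QM.h u * ·) (map_one' _)).trans (Matrix.mul_one _)).symm)
  have h1 := (h _ Y w ⟨rfl, rfl⟩).comp (hz _ _ (QM.α u))
  refine (h _ X _ (fib_zA K xd X)).cancel (sl_tr F u) (h1.congr (fun a => ?_) fun x => ?_)
  · exact (AlgHom.congr_fun (congrArg QM.φ e) a).symm
  · exact (F.comp _ _ _ (Za K xd s (QM.α u)) w x).symm.trans
      ((congrArg (fun v => (F.tr v).f x) e.symm).trans (F.comp _ _ _ (zA K xd s X) u x))

variable (xd U) in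
/-- The parts of the equivalence. -/
structure Kit (B : DC D) (S : GS (QS D G s)) : Type 2 where
  of : DGF (gtc (QS D G s)) (hgc S)
  gau : DGF (hgc S) (otc (QS D G s))
  J : DGF (otc (QS D G s)) (gtc (QS D G s))
  bar : DGF (mdc B.A) (hgc S)
  xi : DGF (otc (QS D G s)) (mdc B.A)
  mid : Z0 (otc (QS D G s)) ⥤ Z0 (otc (QS D G s))
  ev : J.z0 ⋙ of.z0 ⋙ gau.z0 ⟶ 𝟭 _
  j2 : 𝟭 _ ⟶ of.z0 ⋙ gau.z0 ⋙ J.z0
  un : (Res B.A).z0 ⟶ bar.z0 ⋙ gau.z0 ⋙ xi.z0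
  c : xi.z0 ⋙ bar.z0 ⋙ gau.z0 ⟶ mid
  m : 𝟭 _ ⟶ mid
  ofa : ∀ F : Z0 (gtc (QS D G s)), FA.Hom (ho (of.z0.obj F)).fa (gfa (gt F))
  ofa_q : ∀ F, (ofa F).Q
  ofa_nat : ∀ {F F'} (a : F ⟶ F') X x,
    ((ofa F').u X).f ((hh (of.z0.map a) X).f x) = (gh a X).f (((ofa F).u X).f x)
  e0 : ∀ L : Z0 (hgc S), FA.Hom (gfa (gt (J.z0.obj (gau.z0.obj L)))) (ho L).fa
  e0_q : ∀ L, (e0 L).Q
  e0_nat : ∀ {L L'} (a : L ⟶ L') X x,
    ((e0 L').u X).f ((gh (J.z0.map (gau.z0.map a)) X).f x) = (hh a X).f (((e0 L).u X).f x)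
  j2_q : ∀ F, gqis _ (j2.app F)
  m_q : ∀ F, gqis _ (J.z0.map (m.app F))
  xiE : ∀ (L : Z0 (hgc S)) (i : I), Fin U.n →
    GD.Hom ((mo (xi.z0.obj (gau.z0.obj L))).M i).toGD ((ho L).fa.M (Zo xd i)).G
  evh : ∀ L, FC (ho L).fa → ∀ i, Hit xd U (ho L).fa i _ (xiE L i)
  xiE_nat : ∀ {L L'} (a : L ⟶ L') i k x,
    (xiE L' i k).f ((mh (xi.z0.map (gau.z0.map a)) i).f x) =
      (hh a (Zo xd i)).f ((xiE L i k).f x)
  xiE_ev : ∀ L i k x, (xiE L i k).f ((mh (xi.z0.map (ev.app (gau.z0.obj L))) i).f x) =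
    ((e0 L).u (Zo xd i)).f (((ofa (J.z0.obj (gau.z0.obj L))).u (Zo xd i)).f
      ((xiE (of.z0.obj (J.z0.obj (gau.z0.obj L))) i k).f x))
  xiE_cf : ∀ L i k z x,
    (xiE L i k).f (((mo (xi.z0.obj (gau.z0.obj L))).M i).act (B.cf i z) x) =
      ((ho L).fa.M (Zo xd i)).fn (zx D i z) ((xiE L i k).f x)
  xiE_ρ : ∀ L {i j : I} (α : i ⟶ j) k x,
    (xiE L j k).f (((mo (xi.z0.obj (gau.z0.obj L))).ρ α).f x) =
      ((ho L).t (Za K xd s α)).f ((xiE L i k).f x)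
  bar_fc : ∀ N, FC (ho (bar.z0.obj N)).fa
  bar_q : ∀ {N N'} (a : N ⟶ N'), mqis B.A a → ∀ X, GD.Qis (hh (bar.z0.map a) X)
  bE : ∀ (N : Z0 (mdc B.A)) (i : I), Fin U.n →
    GD.Hom ((mo ((Res B.A).z0.obj N)).M i).toGD ((ho (bar.z0.obj N)).fa.M (Zo xd i)).G
  bE_hit : ∀ N i, Hit xd U (ho (bar.z0.obj N)).fa i _ (bE N i)
  un_E : ∀ N i k x, (xiE (bar.z0.obj N) i k).f ((mh (un.app N) i).f x) = (bE N i k).f x
  jj : ∀ (L : Z0 (hgc S)) (X : QO D),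
    GD.Hom ((ho L).fa.M X).G ((gt (J.z0.obj (gau.z0.obj L))).F X)
  e0_jj : ∀ L X x, ((e0 L).u X).f ((jj L X).f x) = x
  g : ∀ (F : Z0 (gtc (QS D G s))) (i : I),
    GD.Hom ((gt (J.z0.obj (mid.obj (gau.z0.obj (of.z0.obj F))))).F (Zo xd i)) ((gt F).F (Zo xd i))
  g_m : ∀ F i x, (g F i).f ((gh (J.z0.map (m.app (gau.z0.obj (of.z0.obj F)))) (Zo xd i)).f
    ((gh (j2.app F) (Zo xd i)).f x)) = x
  g_c : ∀ F i k x, (g F i).f ((gh (J.z0.map (c.app (gau.z0.obj (of.z0.obj F)))) (Zo xd i)).f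
      ((jj _ (Zo xd i)).f ((bE (xi.z0.obj (gau.z0.obj (of.z0.obj F))) i k).f x))) =
    ((ofa F).u (Zo xd i)).f ((xiE (of.z0.obj F) i k).f ((mh ((epsT B.A).app _) i).f x))

namespace Kit

variable {B : DC D} {S : GS (QS D G s)} (k : Kit xd U B S)

/-- The functor from families to modules. -/
def Xi : DGF (gtc (QS D G s)) (mdc B.A) := k.of.comp (k.gau.comp k.xi)

/-- The functor from modules to families. -/
def Th : DGF (mdc B.A) (gtc (QS D G s)) := k.bar.comp (k.gau.comp k.J)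

theorem fc_J (L : Z0 (hgc S)) (h : FC (ho L).fa) :
    FC (gfa (gt (k.J.z0.obj (k.gau.z0.obj L)))) := h.rev (k.e0 L) (k.e0_q L)

theorem fc_of (F : Z0 (gtc (QS D G s))) (h : FC (gfa (gt F))) : FC (ho (k.of.z0.obj F)).fa :=
  h.rev (k.ofa F) (k.ofa_q F)

theorem hit (F : Z0 (gtc (QS D G s))) (h : FC (gfa (gt F))) (i : I) : Hit xd U (gfa (gt F)) i _
    fun l => ((k.ofa F).u (Zo xd i)).comp (k.xiE (k.of.z0.obj F) i l) :=
  (k.evh _ (k.fc_of F h) i).post (k.ofa F) (k.ofa_q F _) (k.ofa_q F _)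

theorem pXi {F F' : Z0 (gtc (QS D G s))} (a : F ⟶ F') (h : FC (gfa (gt F)))
    (h' : FC (gfa (gt F'))) (ha : gqis _ a) : mqis B.A (k.Xi.z0.map a) := fun i =>
  (k.hit F h i).qis' (k.hit F' h' i) (gfh a) ha
    (mh (k.xi.z0.map (k.gau.z0.map (k.of.z0.map a))) i) fun l x =>
      (congrArg ((k.ofa F').u (Zo xd i)).f (k.xiE_nat (k.of.z0.map a) i l x)).trans
        (k.ofa_nat a _ _)

theorem pTh {N N' : Z0 (mdc B.A)} (a : N ⟶ N') (ha : mqis B.A a) : gqis _ (k.Th.z0.map a) :=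
  fun X => (qis_sq (k.e0_nat (k.bar.z0.map a) X) (k.e0_q _ X) (k.e0_q _ X)).2 (k.bar_q a ha X)

theorem q_ev (L : Z0 (hgc S)) (h : FC (ho L).fa) :
    mqis B.A (k.xi.z0.map (k.ev.app (k.gau.z0.obj L))) := fun i =>
  (k.hit _ (k.fc_J L h) i).qis' (k.evh L h i) (k.e0 L) (k.e0_q L) _ (k.xiE_ev L i)

theorem q_un (N : Z0 (mdc B.A)) : mqis B.A (k.un.app N) := fun i =>
  (k.bE_hit N i).qis (k.evh _ (k.bar_fc N) i) _ (k.un_E N i)

theorem zig_un : Zig (mqis B.A) (k.Th.z0 ⋙ k.Xi.z0) (𝟭 _) := by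
  have h1 : NatW (mqis B.A) (k.Th.z0 ⋙ k.Xi.z0) (k.bar.z0 ⋙ k.gau.z0 ⋙ k.xi.z0) :=
    ⟨Functor.whiskerLeft (k.bar.z0 ⋙ k.gau.z0) (Functor.whiskerRight k.ev k.xi.z0),
      fun N => k.q_ev _ (k.bar_fc N)⟩
  exact (h1.zig.trans (NatW.zig ⟨k.un, k.q_un⟩).symm).trans (NatW.zig ⟨epsT _, qis_epsT _⟩)

theorem q_c (hR : REFL) (hU : U.Low) (F : Z0 (gtc (QS D G s))) (h : FC (gfa (gt F))) :
    gqis _ (k.J.z0.map (k.c.app (k.gau.z0.obj (k.of.z0.obj F)))) := by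
  let v : FA.Hom (gfa (gt F)) _ :=
    (gfh (k.J.z0.map (k.m.app (k.gau.z0.obj (k.of.z0.obj F))))).comp (gfh (k.j2.app F))
  have hv : v.Q := fun X => (k.m_q _ X).comp (k.j2_q F X)
  have h1 := k.fc_J _ (k.bar_fc (k.xi.z0.obj (k.gau.z0.obj (k.of.z0.obj F))))
  have h2 := h.fwd v hv
  refine FC.qis K xd h1 h2 (gfh (k.J.z0.map (k.c.app (k.gau.z0.obj (k.of.z0.obj F))))) fun i => ?_
  have hg : GD.Qis (k.g F i) :=
    GD.Qis.of_comp_right (hv (Zo xd i)) (qis_congr (fun x => (k.g_m F i x).symm) (GD.Qis.id _))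
  refine hR I D G s K xd U hU _ _ (gfh (k.J.z0.map (k.c.app (k.gau.z0.obj (k.of.z0.obj F))))) h1
    h2 (gz (k.J.z0.map (k.c.app (k.gau.z0.obj (k.of.z0.obj F))))).vf i _
    (fun l => (k.jj _ (Zo xd i)).comp (k.bE _ i l)) ?_ ?_
  · exact Hit.of_post (k.e0 _) (k.e0_q _ _) (k.e0_q _ _)
      ((k.bE_hit _ i).congr fun l x => (k.e0_jj _ _ _).symm)
  · refine (((k.hit F h i).pre _ (qis_epsT B.A _ i)).post v (hv _) (hv _)).homot
      fun m x hx l => qis_inj hg ((hx.map _).sub (hx.map _)) ((Bd.zero _ m).of_eq ?_)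
    rw [map_sub]
    exact (sub_eq_zero.2 ((k.g_m F i _).trans (k.g_c F i l x).symm)).symm

theorem zig_co (hR : REFL) (hU : U.Low) :
    Zig (gqis _) ((DGF.incl _ (P286EH.GP (QS D G s))).z0 ⋙ k.Xi.z0 ⋙ k.Th.z0)
      ((DGF.incl _ (P286EH.GP (QS D G s))).z0 ⋙ 𝟭 _) := by
  have h1 : NatW (gqis _) ((DGF.incl _ (P286EH.GP (QS D G s))).z0 ⋙ k.Xi.z0 ⋙ k.Th.z0)
      ((DGF.incl _ (P286EH.GP (QS D G s))).z0 ⋙ k.of.z0 ⋙ k.gau.z0 ⋙ k.mid ⋙ k.J.z0) :=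
    ⟨Functor.whiskerLeft ((DGF.incl _ (P286EH.GP (QS D G s))).z0 ⋙ k.of.z0 ⋙ k.gau.z0)
      (Functor.whiskerRight k.c k.J.z0), fun F => k.q_c hR hU _ (fc_of_gc (ob F).2)⟩
  have h2 : NatW (gqis _)
      ((DGF.incl _ (P286EH.GP (QS D G s))).z0 ⋙ k.of.z0 ⋙ k.gau.z0 ⋙ k.J.z0)
      ((DGF.incl _ (P286EH.GP (QS D G s))).z0 ⋙ k.of.z0 ⋙ k.gau.z0 ⋙ k.mid ⋙ k.J.z0) :=
    ⟨Functor.whiskerLeft ((DGF.incl _ (P286EH.GP (QS D G s))).z0 ⋙ k.of.z0 ⋙ k.gau.z0)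
      (Functor.whiskerRight k.m k.J.z0), fun F => k.m_q _⟩
  have h3 : NatW (gqis _) ((DGF.incl _ (P286EH.GP (QS D G s))).z0 ⋙ 𝟭 _)
      ((DGF.incl _ (P286EH.GP (QS D G s))).z0 ⋙ k.of.z0 ⋙ k.gau.z0 ⋙ k.J.z0) :=
    ⟨Functor.whiskerLeft (DGF.incl _ (P286EH.GP (QS D G s))).z0 k.j2, fun F => k.j2_q _⟩
  exact (h1.zig.trans h2.zig.symm).trans h3.zig.symm

theorem cart (hC : CARTF) (hU : U.Low) (F : Z0 (gtc (QS D G s))) (h : FC (gfa (gt F))) :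
    B.Cart (mo (k.Xi.z0.obj F)) ↔ GC (gt F) := by
  have key := fun (i j : I) (α : i ⟶ j) => hC I D G s K xd U hU (gt F) h i j α
    (mag (B.cf i) (B.cf_gr i) (B.cf_d i) ((mo (k.Xi.z0.obj F)).M i))
    (mag (B.cf j) (B.cf_gr j) (B.cf_d j) ((mo (k.Xi.z0.obj F)).M j)) ((mo (k.Xi.z0.obj F)).ρ α)
    _ _ (k.hit F h i) (k.hit F h j)
    (fun l z x => (congrArg ((k.ofa F).u (Zo xd i)).f (k.xiE_cf _ i l z x)).trans
      ((k.ofa F).li _ _ _))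
    (fun l z x => (congrArg ((k.ofa F).u (Zo xd j)).f (k.xiE_cf _ j l z x)).trans
      ((k.ofa F).li _ _ _))
    (B.sl _ α)
    (fun l x => (congrArg ((k.ofa F).u (Zo xd j)).f (k.xiE_ρ _ α l x)).trans
      ((k.ofa F).nat (Za K xd s α) _))
  exact ⟨fun hc => gc_of_fc K xd h fun i j α => (key i j α).1 (hc i j α),
    fun hc i j α => (key i j α).2 (hc.db (Za K xd s α))⟩

include k in
/-- **The equivalence.** -/
theorem eqv (hR : REFL) (hC : CARTF) (hU : U.Low) : EQV (WD.st (QS D G s)) B.wd := by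
  have hΦ : ∀ F, P286EH.GP (QS D G s) F → B.Cart (k.Xi.obj F) := fun F hF =>
    (k.cart hC hU (zo F) (fc_of_gc hF)).2 hF
  have hΨ : ∀ N, B.Cart N → P286EH.GP (QS D G s) (k.Th.obj N) := fun N hN =>
    (k.cart hC hU (k.Th.z0.obj (zo N)) (k.fc_J _ (k.bar_fc (zo N)))).1
      ((zig_obj (P := fun X : Z0 (mdc B.A) => B.Cart (ob X)) (invt_cart' xd B) k.zig_un (zo N)).2 hN)
  exact (P286EH.st_gc _).trans ⟨_, _, inv_restr (invt_gc _) (invt_cart' xd B) hΦ hΨ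
    (fun _ _ a h h' => k.pXi a (fc_of_gc h) (fc_of_gc h')) (fun _ _ => k.pTh)
    (k.zig_co hR hU) k.zig_un⟩

end Kit

end

end Vale.Agent.P286EX
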