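import Vale.Agent.P286EX.Asm
import Vale.Agent.P286EX4.Jg
import Vale.Agent.P286EXB.Bar

/-!
# The parts of the equivalence which involve the functor `xi`
-/

set_option linter.all false

namespace Vale.Agent.P286EX

open CategoryTheory Matrix TensorProduct Vale.Agent.P286 Vale.Agent.P286.St Vale.Agent.P286.H847
  Vale.Agent.P286.H353 Vale.Agent.P286.H710 Vale.Agent.P286.H697 Vale.Agent.P286E
  Vale.Agent.P286EG Vale.Agent.P286EK

noncomputable section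

section Gen

variable {T : TSite} {S : GS T}

/-- The identity of the underlying families. -/
def ofA (S : GS T) (F : Z0 (gtc T)) : FA.Hom (ho ((ofG S).z0.obj F)).fa (gfa (gt F)) :=
  ⟨fun _ => GD.Hom.id _, fun _ _ _ => rfl, fun _ _ => rfl⟩

/-- The twisted family of an object. -/
def oo (F : Z0 (otc T)) : OT T := F

/-- The component of a closed morphism of twisted families. -/
def oh {F F' : Z0 (otc T)} (a : F ⟶ F') (X : T.C) : GD.Hom ((oo F).F X).M ((oo F').F X).M :=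
  (otF T).hom a X

/-- The de Rham complex. -/
abbrev gO (L : Z0 (hgc S)) : Z0 (otc T) := (gauD S).z0.obj L

/-- The inclusion of the forms of degree zero. -/
def inn (L : Z0 (hgc S)) (X : T.C) (x : ((ho L).fa.M X).G.V) : ((oo (gO L)).F X).M.V :=
  (show (ho L).V X from (1 : Om ℂ (T.R X)) ⊗ₜ[T.R X] (show ((ho L).K X).M.V from x))

/-- The projection to the forms of degree zero. -/
def piZ (L : Z0 (hgc S)) (X : T.C) : GD.Hom ((oo (gO L)).F X).M ((ho L).fa.M X).G := (ho L).pi X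

/-- The value on the diagonal in form degree zero. -/
def e0Z (L : Z0 (hgc S)) : FA.Hom (gfa (gt ((jtD S.good).z0.obj (gO L)))) (ho L).fa := e0F (ho L)

/-- The Taylor series. -/
def jjZ (L : Z0 (hgc S)) (X : T.C) :
    GD.Hom ((ho L).fa.M X).G ((gt ((jtD S.good).z0.obj (gO L))).F X) := (ho L).jj X

/-- The fold on level zero. -/
def MD.gz (M : MD T) (F : Z0 (otc T)) (X : T.C) :
    GD.Hom ((oo (M.midD.z0.obj F)).F X).M ((oo F).F X).M := M.g (oo F) X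

/-- The fold on the jets. -/
def MD.gZ (M : MD T) (L : Z0 (hgc S)) (X : T.C) :
    GD.Hom ((gt ((jtD S.good).z0.obj (M.midD.z0.obj (gO L)))).F X) ((ho L).fa.M X).G :=
  M.gJ (ho L) X

theorem MD.gZ_jj (M : MD T) (L L' : Z0 (hgc S)) (X : T.C) (a : gO L' ⟶ M.midD.z0.obj (gO L))
    (y : ((ho L').fa.M X).G.V) :
    (M.gZ L X).f ((gh ((jtD S.good).z0.map a) X).f ((jjZ L' X).f y)) =
      (piZ L X).f ((M.gz (gO L) X).f ((oh a X).f (inn L' X y))) :=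
  M.gJ_jj (ho L) X (ho L') a y

theorem MD.gZ_m (M : MD T) (F : Z0 (gtc T)) (X : T.C) (x : ((gt F).F X).V) :
    (M.gZ ((ofG S).z0.obj F) X).f ((gh ((jtD S.good).z0.map
      (M.mT.app (gO ((ofG S).z0.obj F)))) X).f ((gh ((j2N S).app F) X).f x)) = x :=
  M.gJ_m (ho ((ofG S).z0.obj F)) X x

theorem piZ_map {L L' : Z0 (hgc S)} (a : L ⟶ L') (X : T.C) (y) :
    (piZ L' X).f ((oh ((gauD S).z0.map a) X).f y) = (hh a X).f ((piZ L X).f y) :=
  HG.pi_gauC (zf a) y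

theorem piZ_ev (L : Z0 (hgc S)) (X : T.C) (y) :
    (piZ L X).f ((oh ((evN S).app (gO L)) X).f y) =
      ((e0Z L).u X).f ((piZ ((ofG S).z0.obj ((jtD S.good).z0.obj (gO L))) X).f y) :=
  pi_ev (ho L) X y

theorem e0Z_nat {L L' : Z0 (hgc S)} (a : L ⟶ L') (X : T.C) (x) :
    ((e0Z L').u X).f ((gh ((jtD S.good).z0.map ((gauD S).z0.map a)) X).f x) =
      (hh a X).f (((e0Z L).u X).f x) := e0F_nat (zf a) X x

end Gen

variable {I : Type} [SmallCategory I] {D : CD I} {G : Grp} {s : ℂ} {K : GK G} {xd : XD D}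
  {U : Rep K}

variable (xd U) in
/-- The parts which involve the functor `xi`. -/
structure Kt (C : DC D) (S : GS (QS D G s)) (M : MD (QS D G s)) : Type 2 where
  bar : DGF (mdc C.A) (hgc S)
  xi : DGF (otc (QS D G s)) (mdc C.A)
  un : (Res C.A).z0 ⟶ bar.z0 ⋙ (gauD S).z0 ⋙ xi.z0
  c : xi.z0 ⋙ bar.z0 ⋙ (gauD S).z0 ⟶ M.midD.z0
  xiE : ∀ (L : Z0 (hgc S)) (i : I), Fin U.n →
    GD.Hom ((mo (xi.z0.obj (gO L))).M i).toGD ((ho L).fa.M (Zo xd i)).G
  evh : ∀ L, FC (ho L).fa → ∀ i, Hit xd U (ho L).fa i _ (xiE L i)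
  xiE_nat : ∀ {L L' : Z0 (hgc S)} (a : gO L ⟶ gO L') i
    (v : ((ho L).fa.M (Zo xd i)).G.V → ((ho L').fa.M (Zo xd i)).G.V),
    (∀ y, (piZ L' (Zo xd i)).f ((oh a (Zo xd i)).f y) = v ((piZ L (Zo xd i)).f y)) →
    ∀ k x, (xiE L' i k).f ((mh (xi.z0.map a) i).f x) = v ((xiE L i k).f x)
  xiE_cf : ∀ L i k z x, (xiE L i k).f (((mo (xi.z0.obj (gO L))).M i).act (C.cf i z) x) =
    ((ho L).fa.M (Zo xd i)).fn (zx D i z) ((xiE L i k).f x)
  xiE_ρ : ∀ L {i j : I} (α : i ⟶ j) k x, (xiE L j k).f (((mo (xi.z0.obj (gO L))).ρ α).f x) =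
    ((ho L).t (Za K xd s α)).f ((xiE L i k).f x)
  bar_fc : ∀ N, FC (ho (bar.z0.obj N)).fa
  bar_q : ∀ {N N'} (a : N ⟶ N'), mqis C.A a → ∀ X, GD.Qis (hh (bar.z0.map a) X)
  bE : ∀ (N : Z0 (mdc C.A)) (i : I), Fin U.n →
    GD.Hom ((mo ((Res C.A).z0.obj N)).M i).toGD ((ho (bar.z0.obj N)).fa.M (Zo xd i)).G
  bE_hit : ∀ N i, Hit xd U (ho (bar.z0.obj N)).fa i _ (bE N i)
  un_E : ∀ N i k x, (xiE (bar.z0.obj N) i k).f ((mh (un.app N) i).f x) = (bE N i k).f x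
  c_E : ∀ L i k x, (piZ L (Zo xd i)).f ((M.gz (gO L) (Zo xd i)).f ((oh (c.app (gO L)) (Zo xd i)).f
      (inn (bar.z0.obj (xi.z0.obj (gO L))) (Zo xd i) ((bE (xi.z0.obj (gO L)) i k).f x)))) =
    (xiE L i k).f ((mh ((epsT C.A).app (xi.z0.obj (gO L))) i).f x)

namespace Kt

variable {C : DC D} {S : GS (QS D G s)} {M : MD (QS D G s)} (k : Kt xd U C S M)

/-- The parts of the equivalence. -/
def kit : Kit xd U C S where
  of := ofG S
  gau := gauD S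
  J := jtD S.good
  bar := k.bar
  xi := k.xi
  mid := M.midD.z0
  ev := evN S
  j2 := j2N S
  un := k.un
  c := k.c
  m := M.mT
  ofa := ofA S
  ofa_q _ _ := GD.Qis.id _
  ofa_nat _ _ _ := rfl
  e0 := e0Z
  e0_q L := e0F_Q (ho L)
  e0_nat := e0Z_nat
  j2_q F := gqis_j2G _ (gt F)
  m_q F X := M.qis_jt_m F X
  xiE := k.xiE
  evh := k.evh
  xiE_nat a i := k.xiE_nat ((gauD S).z0.map a) i (hh a (Zo xd i)).f (piZ_map a _)
  xiE_ev L i := k.xiE_nat (L := (ofG S).z0.obj ((jtD S.good).z0.obj (gO L))) (L' := L)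
    ((evN S).app (gO L)) i ((e0Z L).u (Zo xd i)).f (piZ_ev L (Zo xd i))
  xiE_cf := k.xiE_cf
  xiE_ρ := k.xiE_ρ
  bar_fc := k.bar_fc
  bar_q := k.bar_q
  bE := k.bE
  bE_hit := k.bE_hit
  un_E := k.un_E
  jj := jjZ
  e0_jj L X := (ho L).e0_jj X
  g F i := M.gZ ((ofG S).z0.obj F) (Zo xd i)
  g_m F i x := M.gZ_m F (Zo xd i) x
  g_c F i l x := (M.gZ_jj ((ofG S).z0.obj F) (k.bar.z0.obj (k.xi.z0.obj (gO ((ofG S).z0.obj F))))
    (Zo xd i) (k.c.app (gO ((ofG S).z0.obj F))) _).trans (k.c_E ((ofG S).z0.obj F) i l x)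

include k in
theorem eqv (hR : REFL) (hC : CARTF) (hU : U.Low) : EQV (WD.st (QS D G s)) C.wd :=
  k.kit.eqv hR hC hU

end Kt

end

end Vale.Agent.P286EX
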