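import Vale.Agent.P286EX.Spec

/-!
# Formal properties of equivariant classes and of fibre-cartesian families
-/

set_option linter.all false

namespace Vale.Agent.P286EX

open CategoryTheory Matrix TensorProduct Vale.Agent.P286 Vale.Agent.P286.St Vale.Agent.P286.H847
  Vale.Agent.P286E Vale.Agent.P286EG Vale.Agent.P286EK

noncomputable section

section Bd

variable {M N : GD} {m : ℤ} {x y : M.V}

theorem Bd.zero (M : GD) (m : ℤ) : Bd M m 0 := ⟨0, zero_mem _, map_zero _⟩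

theorem Bd.add (h : Bd M m x) (h' : Bd M m y) : Bd M m (x + y) := by
  obtain ⟨a, ha, rfl⟩ := h
  obtain ⟨b, hb, rfl⟩ := h'
  exact ⟨a + b, add_mem ha hb, map_add _ _ _⟩

theorem Bd.neg (h : Bd M m x) : Bd M m (-x) := by
  obtain ⟨a, ha, rfl⟩ := h
  exact ⟨-a, neg_mem ha, map_neg _ _⟩

theorem Bd.sub (h : Bd M m x) (h' : Bd M m y) : Bd M m (x - y) := by
  rw [sub_eq_add_neg]; exact h.add h'.neg

theorem Bd.of_eq (h : Bd M m x) (e : x = y) : Bd M m y := e ▸ h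

theorem Bd.map (u : GD.Hom M N) (h : Bd M m x) : Bd N m (u.f x) := by
  obtain ⟨a, ha, rfl⟩ := h
  exact ⟨u.f a, u.deg _ _ ha, (u.comm a).symm⟩

theorem Bd.sum {ι : Type} (S : Finset ι) {x : ι → M.V} (h : ∀ i ∈ S, Bd M m (x i)) :
    Bd M m (∑ i ∈ S, x i) :=
  Finset.sum_induction x (Bd M m) (fun _ _ => Bd.add) (Bd.zero M m) h

theorem Bd.cy (h : Bd M m x) : Cy M m x := by
  obtain ⟨a, ha, rfl⟩ := h
  exact ⟨M.dgr' (by omega) ha, M.dd a⟩

theorem Cy.map (u : GD.Hom M N) (h : Cy M m x) : Cy N m (u.f x) :=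
  ⟨u.deg _ _ h.1, by rw [← u.comm, h.2, map_zero]⟩

theorem Cy.add (h : Cy M m x) (h' : Cy M m y) : Cy M m (x + y) :=
  ⟨add_mem h.1 h'.1, by rw [map_add, h.2, h'.2, add_zero]⟩

theorem Cy.sub (h : Cy M m x) (h' : Cy M m y) : Cy M m (x - y) :=
  ⟨sub_mem h.1 h'.1, by rw [map_sub, h.2, h'.2, sub_zero]⟩

theorem Cy.sum {ι : Type} (S : Finset ι) {x : ι → M.V} (h : ∀ i ∈ S, Cy M m (x i)) :
    Cy M m (∑ i ∈ S, x i) :=
  Finset.sum_induction x (Cy M m) (fun _ _ => Cy.add) (Bd.zero M m).cy h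

theorem qis_inj {u : GD.Hom M N} (h : GD.Qis u) (hx : Cy M m x) (hb : Bd N m (u.f x)) :
    Bd M m x := (h m).1 x hx.1 hx.2 hb

theorem qis_sur {u : GD.Hom M N} (h : GD.Qis u) {z : N.V} (hz : Cy N m z) :
    ∃ x, Cy M m x ∧ Bd N m (z - u.f x) := by
  obtain ⟨x, h1, h2, h3⟩ := (h m).2 z hz.1 hz.2
  exact ⟨x, ⟨h1, h2⟩, h3⟩

theorem qis_mk {u : GD.Hom M N} (h1 : ∀ m x, Cy M m x → Bd N m (u.f x) → Bd M m x)
    (h2 : ∀ m z, Cy N m z → ∃ x, Cy M m x ∧ Bd N m (z - u.f x)) : GD.Qis u := fun m =>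
  ⟨fun x hx hd hb => h1 m x ⟨hx, hd⟩ hb, fun z hz hd => by
    obtain ⟨x, h3, h4⟩ := h2 m z ⟨hz, hd⟩
    exact ⟨x, h3.1, h3.2, h4⟩⟩

theorem Bd.fn {A : Type} [CommRing A] {M : AG A} {x : M.G.V} (h : Bd M.G m x) (a : A) :
    Bd M.G m (M.fn a x) := by
  obtain ⟨y, hy, rfl⟩ := h
  exact ⟨M.fn a y, M.gr a _ _ hy, M.d a y⟩

theorem Cy.fn {A : Type} [CommRing A] {M : AG A} {x : M.G.V} (h : Cy M.G m x) (a : A) :
    Cy M.G m (M.fn a x) := ⟨M.gr a _ _ h.1, by rw [M.d, h.2, map_zero]⟩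

end Bd

variable {I : Type} [SmallCategory I] {D : CD I} {G : Grp} {s : ℂ} {K : GK G} {xd : XD D}
  {U : Rep K} {F F' F'' : FA (QS D G s)} {i : I} {m : ℤ}

/-- The identity. -/
def FA.Hom.id {T : TSite} (F : FA T) : FA.Hom F F :=
  ⟨fun _ => GD.Hom.id _, fun _ _ _ => rfl, fun _ _ => rfl⟩

/-- The composition (first `u`, then `v`). -/
def FA.Hom.comp {T : TSite} {F F' F'' : FA T} (v : FA.Hom F' F'') (u : FA.Hom F F') :
    FA.Hom F F'' :=
  ⟨fun X => (v.u X).comp (u.u X), fun X a x => by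
    change (v.u X).f ((u.u X).f _) = _
    rw [u.li X a x, v.li X]; rfl, fun φ x => by
    change (v.u _).f ((u.u _).f _) = _
    rw [u.nat, v.nat]; rfl⟩

/-- The morphism is a quasi-isomorphism. -/
def FA.Hom.Q {T : TSite} {F F' : FA T} (u : FA.Hom F F') : Prop := ∀ X, GD.Qis (u.u X)

theorem eqv_sub (x y : Fin U.n → (F.M (Zo xd i)).G.V) (k : Fin U.n) :
    eqv xd U F i (fun l => x l - y l) k = eqv xd U F i x k - eqv xd U F i y k := by
  simp only [eqv, map_sub, Finset.sum_sub_distrib]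
  abel

theorem eqv_map (v : FA.Hom F F') (x : Fin U.n → (F.M (Zo xd i)).G.V) (k : Fin U.n) :
    eqv xd U F' i (fun l => (v.u _).f (x l)) k = (v.u _).f (eqv xd U F i x k) := by
  simp only [eqv, map_sub, map_sum]
  refine congrArg₂ (· - ·) (v.nat (inr K xd s (Zo xd i)) (x k)).symm
    (Finset.sum_congr rfl fun l _ => ?_)
  exact ((v.li (cop K (Zo xd i)) _ _).trans
    (congrArg _ (v.nat (inl K s (Zo xd i)) (x l)))).symm

theorem eqv_bd {x : Fin U.n → (F.M (Zo xd i)).G.V} (h : ∀ k, Bd _ m (x k)) (k : Fin U.n) :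
    Bd _ m (eqv xd U F i x k) :=
  ((h k).map _).sub (Bd.sum _ fun l _ => ((h l).map _).fn _)

theorem eqv_cy {x : Fin U.n → (F.M (Zo xd i)).G.V} (h : ∀ k, Cy _ m (x k)) (k : Fin U.n) :
    Cy _ m (eqv xd U F i x k) :=
  ((h k).map _).sub (Cy.sum _ fun l _ => ((h l).map _).fn _)

theorem InvC.of_bd {x y : Fin U.n → (F.M (Zo xd i)).G.V} (h : InvC xd U F i m x)
    (hy : ∀ k, Cy _ m (y k)) (hb : ∀ k, Bd _ m (x k - y k)) : InvC xd U F i m y :=
  ⟨hy, fun k => ((h.2 k).sub (eqv_bd hb k)).of_eq (by rw [eqv_sub, sub_sub_cancel])⟩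

theorem InvC.sub {x y : Fin U.n → (F.M (Zo xd i)).G.V} (h : InvC xd U F i m x)
    (h' : InvC xd U F i m y) : InvC xd U F i m fun k => x k - y k :=
  ⟨fun k => (h.1 k).sub (h'.1 k), fun k => ((h.2 k).sub (h'.2 k)).of_eq (eqv_sub x y k).symm⟩

theorem InvC.map (v : FA.Hom F F') {x : Fin U.n → (F.M (Zo xd i)).G.V} (h : InvC xd U F i m x) :
    InvC xd U F' i m fun k => (v.u _).f (x k) :=
  ⟨fun k => (h.1 k).map _, fun k => ((h.2 k).map (v.u _)).of_eq (eqv_map v x k).symm⟩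

theorem InvC.rev (v : FA.Hom F F') (hq : GD.Qis (v.u (cop K (Zo xd i))))
    {x : Fin U.n → (F.M (Zo xd i)).G.V} (hx : ∀ k, Cy _ m (x k))
    (h : InvC xd U F' i m fun k => (v.u _).f (x k)) : InvC xd U F i m x :=
  ⟨hx, fun k => qis_inj hq (eqv_cy hx k) ((h.2 k).of_eq (eqv_map v x k))⟩

variable {N N' : GD} {e e' : Fin U.n → GD.Hom N (F.M (Zo xd i)).G}

/-- Maps which agree on cohomology. -/
theorem Hit.homot (h : Hit xd U F i N e)
    (he : ∀ m x, Cy N m x → ∀ k, Bd _ m ((e k).f x - (e' k).f x)) : Hit xd U F i N e' where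
  inv m x hx := (h.inv m x hx).of_bd (fun k => hx.map _) (he m x hx)
  inj m x hx hb := h.inj m x hx fun k => ((he m x hx k).add (hb k)).of_eq (sub_add_cancel _ _)
  sur m z hz := by
    obtain ⟨x, hx, hb⟩ := h.sur m z hz
    exact ⟨x, hx, fun k => ((hb k).add (he m x hx k)).of_eq (sub_add_sub_cancel _ _ _)⟩

theorem Hit.congr (h : Hit xd U F i N e) (he : ∀ k x, (e k).f x = (e' k).f x) :
    Hit xd U F i N e' :=
  h.homot fun m x _ k => (Bd.zero _ m).of_eq (by rw [he, sub_self])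

/-- A map between two complexes which compute the equivariant classes. -/
theorem Hit.qis {e' : Fin U.n → GD.Hom N' (F.M (Zo xd i)).G} (h : Hit xd U F i N e)
    (h' : Hit xd U F i N' e') (u : GD.Hom N N') (he : ∀ k x, (e' k).f (u.f x) = (e k).f x) :
    GD.Qis u := by
  refine qis_mk (fun m x hx hb => h.inj m x hx fun k => (hb.map (e' k)).of_eq (he k x))
    fun m z hz => ?_
  obtain ⟨x, hx, hb⟩ := h.sur m _ (h'.inv m z hz)
  exact ⟨x, hx, h'.inj m _ (hz.sub (hx.map u)) fun k => (hb k).of_eq (by rw [map_sub, he])⟩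

theorem Hit.pre {e' : Fin U.n → GD.Hom N' (F.M (Zo xd i)).G} (h' : Hit xd U F i N' e')
    (u : GD.Hom N N') (hu : GD.Qis u) : Hit xd U F i N fun k => (e' k).comp u where
  inv m x hx := h'.inv m _ (hx.map u)
  inj m x hx hb := qis_inj hu hx (h'.inj m _ (hx.map u) hb)
  sur m z hz := by
    obtain ⟨y, hy, hb⟩ := h'.sur m z hz
    obtain ⟨x, hx, hb'⟩ := qis_sur hu hy
    exact ⟨x, hx, fun k => ((hb k).add (hb'.map (e' k))).of_eq (by
      rw [map_sub, sub_add_sub_cancel]; rfl)⟩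

theorem Hit.post (h : Hit xd U F i N e) (v : FA.Hom F F') (hq : GD.Qis (v.u (Zo xd i)))
    (hq' : GD.Qis (v.u (cop K (Zo xd i)))) :
    Hit xd U F' i N fun k => (v.u (Zo xd i)).comp (e k) where
  inv m x hx := (h.inv m x hx).map v
  inj m x hx hb := h.inj m x hx fun k => qis_inj hq (hx.map _) (hb k)
  sur m z hz := by
    choose y hy hb using fun k => qis_sur hq (hz.1 k)
    obtain ⟨x, hx, hb'⟩ := h.sur m y (InvC.rev v hq' hy (hz.of_bd (fun k => (hy k).map _) hb))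
    exact ⟨x, hx, fun k => ((hb k).add ((hb' k).map (v.u _))).of_eq (by
      rw [map_sub, sub_add_sub_cancel]; rfl)⟩

theorem Hit.of_post (v : FA.Hom F F') (hq : GD.Qis (v.u (Zo xd i)))
    (hq' : GD.Qis (v.u (cop K (Zo xd i))))
    (h : Hit xd U F' i N fun k => (v.u (Zo xd i)).comp (e k)) : Hit xd U F i N e where
  inv m x hx := InvC.rev v hq' (fun k => hx.map _) (h.inv m x hx)
  inj m x hx hb := h.inj m x hx fun k => (hb k).map (v.u _)
  sur m z hz := by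
    obtain ⟨x, hx, hb⟩ := h.sur m _ (hz.map v)
    exact ⟨x, hx, fun k => qis_inj hq ((hz.1 k).sub (hx.map _)) ((hb k).of_eq (by
      rw [map_sub]; rfl))⟩

/-- The induced map is a quasi-isomorphism if the map of families is one. -/
theorem Hit.qis' {e' : Fin U.n → GD.Hom N' (F'.M (Zo xd i)).G} (h : Hit xd U F i N e)
    (h' : Hit xd U F' i N' e') (v : FA.Hom F F') (hv : v.Q) (u : GD.Hom N N')
    (he : ∀ k x, (e' k).f (u.f x) = (v.u (Zo xd i)).f ((e k).f x)) : GD.Qis u :=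
  (h.post v (hv _) (hv _)).qis h' u he

/-! ### Fibre-cartesian families -/

theorem fib_of {X Y : QO D} {u : Ar G s X Y} (h : X.i = Y.i) (hu : QM.α u = eqToHom h) : Fib u :=
  ⟨h, hu⟩

theorem fib_zA (K : GK G) (xd : XD D) (X : QO D) : Fib (zA K xd s X) := ⟨rfl, rfl⟩

theorem fib_inl (K : GK G) (X : QO D) : Fib (inl K s X) := ⟨rfl, rfl⟩

theorem fib_inr (K : GK G) (xd : XD D) (X : QO D) : Fib (inr K xd s X) := ⟨rfl, rfl⟩

theorem FC.rev (h : FC F') (v : FA.Hom F F') (hv : v.Q) : FC F := fun X Y u hu =>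
  (h X Y u hu).rev (F.sl u) (v.li X) (v.li Y) (hv X) (hv Y) (v.nat u)

theorem FC.fwd (h : FC F) (v : FA.Hom F F') (hv : v.Q) : FC F' := fun X Y u hu =>
  (h X Y u hu).fwd (F'.sl u) (v.li X) (v.li Y) (hv X) (hv Y) (v.nat u)

theorem FC.qis (K : GK G) (xd : XD D) (h : FC F) (h' : FC F') (v : FA.Hom F F')
    (hv : ∀ i, GD.Qis (v.u (Zo xd i))) : v.Q := fun X =>
  (h _ X _ (fib_zA K xd X)).qis (h' _ X _ (fib_zA K xd X)) (v.li _) (v.li X) (hv _) (v.nat _)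

end

end Vale.Agent.P286EX
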